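import Crest.Agent.X262.Gwb.Mst
import Crest.Agent.X277.Cns.Pol

/-!
# Row 262, road B (helper2), part 4: the generic fibre of the master space

* `Exp M`, `Full M` : the literal description of the factors `A`, `S`, `G` of a master space
  (`X := Full` in `Gwb.root_of`).
-/

set_option autoImplicit false

noncomputable section

namespace Crest.Agent.X262.Ms2

open Crest.Agent.X277 Crest.Agent.X277.Lef Crest.Agent.X277.AN.G1 Crest.Agent.X277.BD
  Crest.Agent.X277.BD.Br Crest.Agent.R274.Prod1_134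
open Crest.Agent.X277.Cns (IsRF)
open Crest.Agent.X262.Coh Crest.Agent.X262.Gwb

variable {K : Type} [Field K] [Algebra ℂ K] {s : Sit K} {m₁ : Gwb.Emb (sv s.Ym)} {r : ℕ}

/-- the function field of the master space is `(K ⊗ F)(t)`, with explicit factors `A`, `S`, `G` -/
structure Exp (M : Mst s m₁ r) where
  /-- the functions on `Y × S` -/
  ρ : PF ℂ K M.S.F →ₐ[ℂ] M.B.F
  /-- the fibre coordinate -/
  t : M.B.F
  rf : IsRF ρ t
  TA : M.m.T M.jA = ⟨Fin (s.Y.N + 1), fun i => ρ (pα ℂ K M.S.F (s.Y.y i))⟩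
  TS : M.m.T M.jS = ⟨Fin (M.S.P.N + 1), fun k => ρ (pβ ℂ K M.S.F (M.S.P.y k))⟩
  TG : M.m.T M.jG = ⟨Option (Fin (M.S.P.N + 1)),
    fun o => o.elim t fun k => ρ (pα ℂ K M.S.F s.gp) * ρ (pβ ℂ K M.S.F (M.S.P.y k))⟩
  AS : M.jA ≠ M.jS
  AG : M.jA ≠ M.jG
  SG : M.jS ≠ M.jG
  ζ_p : M.ζ.p = Plc.ofHom (ρ.comp (pα ℂ K M.S.F))
  σ_p : M.σ.p = Plc.ofHom (ρ.comp (pβ ℂ K M.S.F))

/-- the master space is given explicitly -/
def Full : Ext := fun M => Nonempty (Exp M)

end Crest.Agent.X262.Ms2
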