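import Crest.Agent.X262.Ms2.Tup
import Crest.Agent.X262.End36.Emb

/-!
# Row 262, road B (helper2), part 7: records

* `isE_of`, `cod_of_eq`, `cod_of_zero`, `bd_eq` : the fields of `Emb`;  `m1` : the embedding of
  the concave end;
* `pure_of`, `mem_range_of_gen` : tuples whose restriction comes from the first factor.
-/

set_option autoImplicit false

noncomputable section

namespace Crest.Agent.X262.Ms2

open Crest.Agent.X277 Crest.Agent.X277.Lef Crest.Agent.X277.AN.G1 Crest.Agent.X277.BD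
  Crest.Agent.X277.BD.Br
open Crest.Agent.X277.Cns (Gn)
open Crest.Agent.R274.Prod1_134 (isPF pα pβ)
open Crest.Agent.X262.Coh Crest.Agent.X262.Gwb Crest.Agent.X262.End36

theorem isE_of {Y : SV} {J : Type} (T : J → Tup Y.F)
    (h : ∀ x : Y.Pt, ∃ A : Set Y.F, (lp x).Of (Algebra.adjoin ℂ A) ∧ ∀ g ∈ A, ∃ j i i',
      (T j).y i' ≠ 0 ∧ (∀ l, (T j).y l / (T j).y i' ∈ (lp x).O) ∧ g = (T j).y i / (T j).y i') :
    IsE T := by
  intro x f hf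
  obtain ⟨A, h1, h2⟩ := h x
  have h3 : Algebra.adjoin ℂ A ≤ Algebra.adjoin ℂ (crdAt T x) := Algebra.adjoin_mono fun g hg => by
    obtain ⟨j, i, i', h4, h5, h6⟩ := h2 g hg
    exact ⟨j, i, i', at_mxf h4 h5, h6⟩
  obtain ⟨a, ha, c, hc, h4⟩ := h1.loc f hf
  exact ⟨a, h3 ha, c, h3 hc, h4⟩

section Cod

variable {F J : Type} [Field F] [Algebra ℂ F] [DecidableEq J] (T : J → Tup F) (j : J)

theorem cod_of_zero (i : (T j).io) (h : (T j).y i = 0) :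
    ∃ (q : MvPolynomial (Σ j, (T j).io) ℂ) (κ : J → ℕ), q ≠ 0 ∧
      q.IsWeightedHomogeneous (fun v => (Pi.single v.1 1 : J → ℕ)) κ ∧
      MvPolynomial.aeval (fun v : Σ j, (T j).io => (T v.1).y v.2) q = 0 :=
  ⟨MvPolynomial.X ⟨j, i⟩, Pi.single j 1, MvPolynomial.X_ne_zero _,
    MvPolynomial.isWeightedHomogeneous_X _ _ _, (MvPolynomial.aeval_X _ _).trans h⟩

theorem cod_of_eq (i i' : (T j).io) (hi : i ≠ i') (h : (T j).y i = (T j).y i') :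
    ∃ (q : MvPolynomial (Σ j, (T j).io) ℂ) (κ : J → ℕ), q ≠ 0 ∧
      q.IsWeightedHomogeneous (fun v => (Pi.single v.1 1 : J → ℕ)) κ ∧
      MvPolynomial.aeval (fun v : Σ j, (T j).io => (T v.1).y v.2) q = 0 := by
  refine ⟨MvPolynomial.X ⟨j, i⟩ - MvPolynomial.X ⟨j, i'⟩, Pi.single j 1,
    sub_ne_zero.2 fun h0 => hi ?_, ?_, ?_⟩
  · exact sigma_mk_injective (β := fun j => (T j).io) (MvPolynomial.X_injective h0)
  · exact (MvPolynomial.weightedHomogeneousSubmodule ℂ _ _).sub_mem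
      (MvPolynomial.isWeightedHomogeneous_X ℂ _ (⟨j, i⟩ : Σ j, (T j).io))
      (MvPolynomial.isWeightedHomogeneous_X ℂ _ (⟨j, i'⟩ : Σ j, (T j).io))
  · rw [map_sub, MvPolynomial.aeval_X, MvPolynomial.aeval_X]
    exact sub_eq_zero.2 h

end Cod

/-- padding with zeros does not change the divisor -/
theorem bd_eq {F ι κ : Type} [Field F] [Algebra ℂ F] [Fintype ι] [Fintype κ] {s : ι → F}
    {s' : κ → F} (h0 : ∃ i, s i ≠ 0) (h1 : ∀ i, ∃ k, s' k = s i)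
    (h2 : ∀ k, s' k = 0 ∨ ∃ i, s' k = s i) : mxf ℂ s = mxf ℂ s' := by
  refine eq_mxf (fun k => ?_) fun V => ?_
  · obtain h | ⟨i, h⟩ := h2 k <;> rw [h]
    exacts [zero_mem _, mem_Sec_mxf s i]
  · obtain ⟨i, hi⟩ := exists_val_mxf (k := ℂ) h0 V
    obtain ⟨k, hk⟩ := h1 i
    exact ⟨k, hk ▸ hi⟩

section M1

variable {K : Type} [Field K] [Algebra ℂ K] {P : PModel ℂ K} {n : ℕ} {a : Fin (n + 1) → K}

/-- a family with a tuple `(0, …, 0, a · y)` is an embedding -/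
theorem isE_pad (hg : Gn P a) {J : Type} (T : J → Tup K) (j : J)
    (e : Fin (n + 1) → Fin (P.N + 1) → (T j).io) (h1 : ∀ i l, (T j).y (e i l) = a i * P.y l)
    (h2 : ∀ o, (T j).y o = 0 ∨ ∃ i l, (T j).y o = a i * P.y l) : IsE (Y := sv P) T := by
  refine isE_of (Y := sv P) T fun x => ?_
  obtain ⟨l, hl⟩ := exists_pat x
  obtain ⟨i, h3, h4⟩ := hg x
  refine ⟨_, lp_of hl, ?_⟩
  rintro _ ⟨l', rfl⟩
  refine ⟨j, e i l', e i l, by rw [h1]; exact mul_ne_zero h3 (P.y_ne l), fun o => ?_, ?_⟩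
  · obtain h | ⟨i', l'', h⟩ := h2 o <;> rw [h]
    · rw [zero_div]
      exact zero_mem _
    · rw [h1, mul_div_mul_comm]
      exact mul_mem (h4 i') (y_mem hl l'')
  · rw [h1, h1, mul_div_mul_left _ _ h3]

theorem bd_tm1 (ha : ∀ j, a j ≠ 0) :
    mxf ℂ (fun p : Fin (n + 1) × Fin (P.N + 1) => a p.1 * P.y p.2) = (tm1 a P).bd :=
  bd_eq ⟨(0, 0), mul_ne_zero (ha 0) (P.y_ne 0)⟩ (fun p => ⟨some p, rfl⟩)
    fun o => o.casesOn (Or.inl rfl) fun p => Or.inr ⟨p, rfl⟩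

/-- the embedding by the single tuple `(0, a · y)` -/
def m1 (ha : ∀ j, a j ≠ 0) (hg : Gn P a) : Gwb.Emb (sv P) where
  J := Unit
  T _ := tm1 a P
  reg _ := ⟨⟨some (0, 0), mul_ne_zero (ha 0) (P.y_ne 0)⟩,
    bd_tm1 ha ▸ mxf_mem (hg.mul Cns.gn_y)⟩
  emb := isE_pad hg (fun _ : Unit => tm1 a P) () (fun i l => some (i, l)) (fun _ _ => rfl)
    fun o => o.casesOn (Or.inl rfl) fun p => Or.inr ⟨p.1, p.2, rfl⟩
  nt _ := ⟨⟨none, some (0, 0), (Option.some_ne_none _).symm⟩⟩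
  cod := cod_of_zero (fun _ : Unit => tm1 a P) () none rfl

end M1

theorem pure_of {Y S B : SV} (i : Hom (Y.prod S) B) {ι : Type} [Fintype ι] [DecidableEq ι]
    {y : ι → B.F} (hT : (Tup.mk ι y).Reg B) (u : B.F) {r : ι → Y.F} (h0 : ∃ l, r l ≠ 0)
    (h : ∀ l, y l / u ∈ i.p.O ∧ i.p.π (y l / u) = pα ℂ Y.F S.F (r l)) :
    (Tup.mk ι r).Reg Y ∧ ∃ p : Tup (Y.prod S).F, p.Reg _ ∧ Rs i (Tup.mk ι y) p ∧
      Rs (fst Y S) (Tup.mk ι r) p := by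
  have h1 : Rs i (Tup.mk ι y) (Tup.mk ι fun l => pα ℂ Y.F S.F (r l)) :=
    ⟨Equiv.refl _, u, 1, fun l => (h l).1, fun l => by rw [one_mul]; exact (h l).2.symm⟩
  have h2 := rs_reg h1 (h0.imp fun l hl => (map_ne_zero _).2 hl) hT
  obtain ⟨s⟩ : Nonempty S.Pt := inferInstance
  have h3 : Rs (pair (idH Y) (Cns.cst Y.P s)) (Tup.mk ι fun l => pα ℂ Y.F S.F (r l))
      (Tup.mk ι r) := by
    have h4 := fun l => Cns.plcP_left (isPF ℂ Y.F S.F) (p := (idH Y).p) (Cns.cst Y.P s).p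
      (a := r l) Algebra.mem_top
    refine ⟨Equiv.refl _, 1, 1, fun l => ?_, fun l => ?_⟩
    · rw [div_one]
      exact (h4 l).1
    · rw [div_one, one_mul]
      exact (h4 l).2.symm
  exact ⟨rs_reg h3 h0 h2, _, h2, h1, Equiv.refl _, 1, 1, fun _ => Algebra.mem_top,
    fun l => by rw [div_one, one_mul]; rfl⟩

theorem mem_range_of_gen {K M E : Type} [Field K] [Algebra ℂ K] [Field M] [Algebra ℂ M] [Field E]
    [Algebra ℂ E] (α : K →ₐ[ℂ] M) (p : Plc E M) {L : LP E} {A : Set E}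
    (h1 : L.Of (Algebra.adjoin ℂ A)) (h2 : L.O ≤ p.O) (h3 : ∀ f ∈ L.O, L.v f ≠ 0 → p.π f ≠ 0)
    (h4 : ∀ g ∈ A, ∃ a, α a = p.π g) : ∀ f ∈ L.O, ∃ a, α a = p.π f := by
  have h5 : ∀ g ∈ Algebra.adjoin ℂ A, ∃ a, α a = p.π g := fun g hg => by
    refine Algebra.adjoin_induction (p := fun g _ => ∃ a, α a = p.π g) h4
      (fun c => ⟨algebraMap ℂ K c, by rw [p.π_alg, AlgHom.commutes]⟩) ?_ ?_ hg
    · rintro f g hf hg ⟨a, ha⟩ ⟨b, hb⟩
      exact ⟨a + b, by rw [map_add, ha, hb, p.π_add (h2 (h1.le hf)) (h2 (h1.le hg))]⟩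
    · rintro f g hf hg ⟨a, ha⟩ ⟨b, hb⟩
      exact ⟨a * b, by rw [map_mul, ha, hb, p.π_mul (h2 (h1.le hf)) (h2 (h1.le hg))]⟩
  intro f hf
  obtain ⟨a, ha, c, hc, h6, rfl⟩ := h1.loc f hf
  obtain ⟨a', ha'⟩ := h5 _ ha
  obtain ⟨c', hc'⟩ := h5 _ hc
  refine ⟨a' / c', ?_⟩
  rw [map_div₀, ha', hc', p.π_mul (h2 hf) (h2 (h1.le hc)),
    mul_div_cancel_right₀ _ (h3 c (h1.le hc) h6)]

end Crest.Agent.X262.Ms2
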