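import Crest.Agent.X262.Ms2.Sp
import Crest.Agent.X262.Ms2.Rec
import Crest.Agent.X262.Ms2.Defs
import Crest.Agent.X262.Pt39.Inp
import Crest.Agent.X262.Pur32.Main
import Crest.Agent.X262.Res.Main

/-!
# Row 262, road B (helper2), part 8: master spaces exist

* `Spc.m` : the embedding of the space;  `Spc.res` : the restriction to the concave end;
* `mstStmt : MstStmt Full`.
-/

set_option autoImplicit false

noncomputable section

namespace Crest.Agent.X262.Ms2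

open Crest.Agent.X277 Crest.Agent.X277.Lef Crest.Agent.X277.AN.G1 Crest.Agent.X277.BD
  Crest.Agent.X277.BD.Br
open Crest.Agent.X277.Cns (IsRF lpR Gn)
open Crest.Agent.R274.Prod1_134 (IsPF isPF pα pβ PF)
open Crest.Agent.X262.Coh Crest.Agent.X262.End79
open Crest.Agent.X262.Gwb (Tup Rs ownT IsProj Sit Mst Pur MstStmt)
open Crest.Agent.X262.Chn (mor)

theorem pureStmt : PureStmt := by
  intro K F M E _ _ _ _ _ _ _ _ α β pf ρ X S J _ io _ _ s hs hfr vx u rf hu v1 v2 v3 H2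
  obtain ⟨B, N, R, h1, h2, h3, h4, h5, h6, h7⟩ :=
    Pur32.exists_pure (Res.plusStmt ℂ) pf ρ X S s hs hfr vx u rf hu v1 v2 v3 H2
  obtain ⟨x⟩ : Nonempty (Pts X) := inferInstance
  exact ⟨B, N, R, h1, h2, h3, h4, h5, h6, x, h7 x⟩

/-- the factors which come from `Ym` on the concave end -/
inductive Jx : Type
  | U | A | G | R

instance : DecidableEq Jx := Classical.decEq _

instance : Fintype Jx := ⟨{.U, .A, .G, .R}, fun j => by cases j <;> simp⟩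

variable {K F M E F' : Type} [Field K] [Algebra ℂ K] [Field F] [Algebra ℂ F] [Field M]
  [Algebra ℂ M] [Field E] [Algebra ℂ E] [Field F'] [Algebra ℂ F']

theorem nt_fin {N : ℕ} (h : 0 < N) : Nontrivial (Fin (N + 1)) := Fin.nontrivial_iff_two_le.2 (by omega)

theorem reg_of {ι : Type} [Fintype ι] [DecidableEq ι] {B : PModel ℂ E} {y : ι → E} (h : Gn B y) :
    (Tup.mk ι y).Reg (sv B) := ⟨h.exists_ne, mxf_mem h⟩

namespace Spc

variable {D : Dat K F E} {α : K →ₐ[ℂ] M} {β : F →ₐ[ℂ] M} {ρ : M →ₐ[ℂ] E} {h : D.Ok α β ρ}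
  (W : Spc h)

/-- the factors `U, A, G, R` -/
def T0 : Jx → Tup E
  | .U => ⟨D.ιU, D.yU⟩
  | .A => ⟨Fin (D.Y.N + 1), fun i => D.κ (D.Y.y i)⟩
  | .G => ⟨Option (Fin (D.S.N + 1)), D.yG⟩
  | .R => ⟨Fin (W.N + 1), W.R⟩

/-- all factors -/
def T : Option (Option Jx) → Tup E
  | none => ⟨Option (D.ιU × Fin (D.S.N + 1)), D.yC⟩
  | some none => ⟨Fin (D.S.N + 1), D.μ⟩
  | some (some k) => W.T0 k

theorem reg0 (k : Jx) : (W.T0 k).Reg (sv W.B) := by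
  cases k
  exacts [reg_of (W.gn .U), reg_of (W.gn .A), reg_of (W.gn .G), reg_of W.gnR]

theorem nt0 (hY : 0 < D.Y.N) (k : Jx) : Nontrivial (W.T0 k).io := by
  cases k
  · exact ⟨⟨(0, .inl (0, 0)), (0, .inr 0), fun h => Sum.inl_ne_inr (congrArg Prod.snd h)⟩⟩
  · exact nt_fin hY
  · exact ⟨⟨none, some 0, (Option.some_ne_none _).symm⟩⟩
  · exact nt_fin W.N_pos

/-- the embedding -/
def m (hY : 0 < D.Y.N) (hS : 0 < D.S.N) : Gwb.Emb (sv W.B) where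
  J := Option (Option Jx)
  T := W.T
  reg := by
    rintro (_ | _ | k)
    exacts [reg_of (W.gn .C), reg_of W.gnS, W.reg0 k]
  emb := isE_of (Y := sv W.B) W.T fun w => by
    obtain ⟨i, k, hw⟩ := W.emb w
    refine ⟨_, hw, ?_⟩
    rintro _ (⟨l, rfl⟩ | ⟨l, rfl⟩)
    · exact ⟨some (some .R), l, i, W.R_ne i,
        fun l => hw.le (Algebra.subset_adjoin (Or.inl ⟨l, rfl⟩)), rfl⟩
    · exact ⟨some none, l, k, Dat.μ_ne k, fun l => (h.μ_div k l).symm ▸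
        hw.le (Algebra.subset_adjoin (Or.inr ⟨l, rfl⟩)), (h.μ_div k l).symm⟩
  nt := by
    rintro (_ | _ | k)
    exacts [⟨⟨none, some ((0, .inr 0), 0), (Option.some_ne_none _).symm⟩⟩, nt_fin hS, W.nt0 hY k]
  cod := cod_of_eq W.T none (some ((0, .inl (0, 0)), ⟨1, Nat.succ_lt_succ hS⟩))
    (some ((0, .inl (0, ⟨1, Nat.succ_lt_succ hS⟩)), 0))
    (fun h => one_ne_zero (congrArg (fun p : D.ιU × Fin (D.S.N + 1) => p.2.1)
      (Option.some.inj h))) (by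
      simp only [T, Dat.yC, Dat.yU, Option.elim, Sum.elim_inl]
      ring)

theorem res_R : ∃ (r : Fin (W.N + 1) → K) (i : Fin (W.N + 1)), r i ≠ 0 ∧
    ∀ l, W.R l / W.R i ∈ W.em.i.p.O ∧ W.em.i.p.π (W.R l / W.R i) = α (r l) := by
  obtain ⟨x, i, L, h1, h2, h3⟩ := W.pur
  obtain ⟨s⟩ : Nonempty (Pts D.S) := inferInstance
  obtain ⟨k, hk⟩ := exists_pat s
  obtain ⟨z, rfl, rfl⟩ : ∃ z : Pts (Cns.prod D.Ym D.S h.pf), (Cns.fst _ _ h.pf).map z = x ∧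
      (Cns.snd _ _ h.pf).map z = s := ⟨Cns.mk h.pf x s, Cns.fst_mk _ _ _, Cns.snd_mk _ _ _⟩
  have h4 : L.O ≤ (lp (W.em.i.map z)).O := vx_le h h2 h3 (κ_mem W.em rfl z) fun k' => by
    have h5 := μ_mem W.em rfl hk k'
    rw [h.um_mul _ _ k, ← h.μ_div]
    exact ⟨mul_mem (W.witm z hk).mem h5, by
      rw [LP.v_mul _ (W.witm z hk).mem h5]
      exact mul_eq_zero_of_left (W.witm z hk).ev_eq _⟩
  have h5 := mem_range_of_gen α W.em.i.p h2 (fun f hf => W.em.i.mem_O (h4 hf))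
    (fun f hf h0 h5 => h0 (by
      rw [← (dom_le h4).eq f hf]
      exact (W.em.i.ev_map (h4 hf)).trans (by rw [h5]; exact LP.v_zero _))) (by
      rintro _ (⟨f, -, rfl⟩ | ⟨k', rfl⟩)
      · exact ⟨f, (p0_ρ h.rf.inv (α f)).2.symm⟩
      · refine ⟨0, ?_⟩
        beta_reduce
        rw [h.um_eq', mul_comm, map_zero]
        exact (p0_scale h.rf.inv _).2.symm)
  choose r hr using fun l => h5 _ (h1 l)
  refine ⟨r, i, fun h0 => ?_, fun l => ⟨W.em.i.mem_O (h4 (h1 l)), (hr l).symm⟩⟩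
  have h6 := hr i
  rw [h0, map_zero, div_self (W.R_ne i), Plc.π_one] at h6
  exact zero_ne_one h6

/-- on the concave end the factors `U, A, G, R` come from `Ym` -/
theorem res : ∃ (r : ∀ k, (W.T0 k).io → K) (u : Jx → E),
    (∀ q : D.ιU, r .U q = q.2.elim (fun _ => 0) fun l => D.a q.1 * D.Ym.y l) ∧
    ∀ k, (∃ l, r k l ≠ 0) ∧ ∀ l, (W.T0 k).y l / u k ∈ W.em.i.p.O ∧
      W.em.i.p.π ((W.T0 k).y l / u k) = α (r k l) := by
  obtain ⟨r, i, h1, h2⟩ := W.res_R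
  have k0 : ∀ {f : E} (c : M), f = ρ c * D.t⁻¹ → f ∈ W.em.i.p.O ∧ W.em.i.p.π f = α 0 := by
    rintro _ c rfl
    rw [map_zero]
    exact p0_scale h.rf.inv c
  have k1 : ∀ {f : E} (c : K), f = D.κ c → f ∈ W.em.i.p.O ∧ W.em.i.p.π f = α c := by
    rintro _ c rfl
    rw [h.κ]
    exact p0_ρ h.rf.inv _
  refine ⟨fun k => match k with
    | .U => fun q : D.ιU => q.2.elim (fun _ => 0) fun l => D.a q.1 * D.Ym.y l
    | .A => D.Y.y
    | .G => fun o : Option (Fin (D.S.N + 1)) => o.elim 1 fun _ => 0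
    | .R => r, fun k => match k with
    | .U => D.t
    | .A => 1
    | .G => D.t
    | .R => W.R i, fun _ => rfl, fun k => ?_⟩
  cases k
  · refine ⟨⟨(0, .inr 0), mul_ne_zero (h.a 0) (D.Ym.y_ne 0)⟩, ?_⟩
    rintro ⟨j, p | l⟩
    · refine k0 (α (D.a j) * (α (D.a p.1) * β (D.S.y p.2))) ?_
      rw [map_mul, map_mul, ← h.κ, ← h.κ, ← h.σ]
      exact div_eq_mul_inv _ _
    · refine k1 _ ?_
      change D.κ (D.a j) * (D.t * D.κ (D.Ym.y l)) / D.t = D.κ (D.a j * D.Ym.y l)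
      rw [map_mul, mul_left_comm, mul_div_cancel_left₀ _ h.ne.t]
  · exact ⟨⟨(0 : Fin (D.Y.N + 1)), D.Y.y_ne 0⟩, fun l => k1 _ (div_one _)⟩
  · refine ⟨⟨none, one_ne_zero⟩, ?_⟩
    rintro (_ | l)
    · exact k1 1 ((div_self h.ne.t).trans (map_one _).symm)
    · refine k0 (α D.gp * β (D.S.y l)) ?_
      rw [map_mul, ← h.κ, ← h.σ]
      exact div_eq_mul_inv _ _
  · exact ⟨⟨i, h1⟩, h2⟩

/-- the projection to `Y` -/
def ζ : Hom (sv W.B) (sv D.Y) := Cns.morHom D.κ fun w => (W.gn .A w).imp fun _ hi => hi.2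

/-- the projection to `S` -/
def σ : Hom (sv W.B) (sv D.S) := Cns.morHom D.σ fun w => (W.gnS w).imp fun _ hi => hi.2

theorem ζ_end {Q : PModel ℂ K} (hQ : Chn.Ge Q D.Y)
    (e : End (sv (Cns.prod Q D.S h.pf)) (sv W.B)) (he : e.ρ = ρ) (z : Pts (Cns.prod Q D.S h.pf)) :
    W.ζ.map (e.i.map z) = (mor hQ).map ((Cns.fst _ _ h.pf).map z) :=
  W.ζ.map_eq (dom_le fun f hf => ⟨Algebra.mem_top, κ_mem e he z f ((Pt39.dom_mor hQ _).le hf)⟩)

theorem σ_end {Q : PModel ℂ K} (e : End (sv (Cns.prod Q D.S h.pf)) (sv W.B)) (he : e.ρ = ρ)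
    (z : Pts (Cns.prod Q D.S h.pf)) : W.σ.map (e.i.map z) = (Cns.snd _ _ h.pf).map z :=
  W.σ.map_eq (dom_le fun f hf => ⟨Algebra.mem_top, by
    change D.σ f ∈ _
    rw [h.σ, ← DFunLike.congr_fun he]
    exact e.ρ_mem ((mem_prod h.pf z).2 _ hf)⟩)

/-- the map to the cone -/
theorem exists_γ (c : Cone F' D.S) : ∃ γ : Hom (sv W.B) (sv c.P),
    Rs γ (ownT (sv c.P)) (W.T0 .G) ∧ Bim (pair W.ζ γ) ∧ ∀ (w : Pts W.B) (k : Fin (D.S.N + 1)),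
      (∀ o, D.yG o / D.yG (some k) ∈ (lp w).O) →
      ∀ o, ∃ f ∈ (lp (γ.map w)).O, γ.p.π f = D.yG o / D.yG (some k) := by
  obtain ⟨φ, h1, h2, h3⟩ := c.exists_φ h.pf
    (h.rf.scale (inv_ne_zero ((map_ne_zero α).2 h.gp.1)))
  have e := Dat.κ_ne (D := D) h.gp.1
  have h4 : ∀ o, D.yG o = D.κ D.gp * φ (c.P.y (c.e o)) := by
    rintro (_ | k)
    · rw [c.y0, h2, map_inv₀, ← h.κ, mul_inv_cancel_left₀ e]
      rfl
    · rw [c.y1, h1, ← h.σ]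
      rfl
  have h5 : ∀ o o', φ (c.P.y (c.e o)) / φ (c.P.y (c.e o')) = D.yG o / D.yG o' := fun o o' => by
    rw [h4, h4, mul_div_mul_left _ _ e]
  let γ : Hom (sv W.B) (sv c.P) := Cns.morHom φ fun w => by
    obtain ⟨o, -, ho⟩ := W.gn .G w
    refine ⟨c.e o, fun j => ?_⟩
    obtain ⟨o', rfl⟩ := c.e.surjective j
    exact (h5 o' o).symm ▸ ho o'
  refine ⟨γ, ⟨c.e.symm, 1, D.κ D.gp, fun _ => Algebra.mem_top, fun j => ?_⟩,
    bim_of W.ζ γ (κ := D.κ) (φ := φ) rfl rfl (by rwa [show D.κ = ρ.comp α from AlgHom.ext h.κ]),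
    fun w k hk o => ⟨c.P.y (c.e o) / c.P.y (c.e (some k)), y_mem (γ.map_mem_pat.2 fun j => ?_) _,
      (map_div₀ φ _ _).trans (h5 _ _)⟩⟩
  · obtain ⟨o, rfl⟩ := c.e.surjective j
    change D.yG (c.e.symm (c.e o)) = D.κ D.gp * φ (c.P.y (c.e o) / 1)
    rw [Equiv.symm_apply_apply, div_one]
    exact h4 o
  · obtain ⟨o', rfl⟩ := c.e.surjective j
    refine ⟨Algebra.mem_top, ?_⟩
    change φ (c.P.y (c.e o') / c.P.y (c.e (some k))) ∈ _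
    rw [map_div₀, h5]
    exact hk o'

theorem lpb_G : LPb W.ep.i (W.T0 .G).bd (pb β (oP D.S)) := by
  have h1 := W.ep.lpb (T := W.T0 .G)
    (p := ⟨Option (Fin (D.S.N + 1)), fun o => o.elim 0 fun k => β (D.S.y k)⟩)
    (W.ep.rs (Equiv.refl _) (D.κ D.gp) ?_) ⟨some 0, (map_ne_zero β).2 (D.S.y_ne 0)⟩ (W.reg0 .G)
  · rwa [pb_oP, bd_eq (s := fun k => β (D.S.y k)) (s' := fun o : Option (Fin (D.S.N + 1)) => o.elim 0 fun k => β (D.S.y k))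
      ⟨0, (map_ne_zero β).2 (D.S.y_ne 0)⟩ (fun k => ⟨some k, rfl⟩)
      fun o => o.casesOn (Or.inl rfl) fun k => Or.inr ⟨k, rfl⟩]
  · rintro (_ | k)
    · refine ⟨ρ (α D.gp)⁻¹, (p0_ρ h.rf _).1, ?_⟩
      change D.t / D.κ D.gp = ρ 0 + ρ (α D.gp)⁻¹ * D.t
      rw [map_zero, zero_add, map_inv₀, ← h.κ, div_eq_inv_mul]
    · refine ⟨0, zero_mem _, ?_⟩
      change D.κ D.gp * D.μ k / D.κ D.gp = ρ (β (D.S.y k)) + 0 * D.t
      rw [zero_mul, add_zero, ← h.σ, mul_div_cancel_left₀ _ (Dat.κ_ne h.gp.1)]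

theorem rs_S : Rs W.em.i (W.T (some none)) ⟨Fin (D.S.N + 1), fun k => β (D.S.y k)⟩ :=
  W.em.rs (Equiv.refl _) 1 fun k => ⟨0, zero_mem _, by
    rw [div_one, zero_mul, add_zero]
    exact h.σ _⟩

end Spc

theorem exists_cone (S : SV) (hS : IsProj S) : ∃ (F' : Type) (_ : Field F') (_ : Algebra ℂ F')
    (c : Cone F' S.P), IsProj (sv c.P) :=
  ⟨(cone S hS).F, _, _, ⟨(cone S hS).P, cπ S, cτ S, (finSuccEquiv _).symm, c_rf S, rfl,
    fun _ => rfl⟩, isProj_cone S hS⟩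

theorem exists_rf (M : Type) [Field M] [Algebra ℂ M] : ∃ (E : Type) (_ : Field E)
    (_ : Algebra ℂ E) (ρ : M →ₐ[ℂ] E) (t : E), IsRF ρ t :=
  ⟨RatFunc M, _, _, _, _, Cns.isRF_ratFunc⟩

theorem rs_own {X Y : SV} (μ : Hom X Y) {π : Y.F →ₐ[ℂ] X.F} (hμ : μ.p = Plc.ofHom π) :
    Rs μ (ownT Y) ⟨Fin (Y.P.N + 1), fun k => π (Y.P.y k)⟩ :=
  ⟨Equiv.refl _, 1, 1, fun _ => hμ ▸ Algebra.mem_top, fun l => by
    rw [div_one, one_mul, hμ]
    rfl⟩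

/-- the data of a situation -/
abbrev dat (s : Sit K) {n : ℕ} (a : Fin (n + 1) → K) (S : SV) (ρ : PF ℂ K S.F →ₐ[ℂ] E) (t : E) :
    Dat K S.F E :=
  ⟨s.Y, s.Yp, s.Ym, S.P, n, a, s.gp, s.gm, ρ.comp (pα ℂ K S.F), ρ.comp (pβ ℂ K S.F), t⟩

section Fin

variable {s : Sit K} {n : ℕ} {a : Fin (n + 1) → K} {S : SV} {ρ : PF ℂ K S.F →ₐ[ℂ] E} {t : E}
  {h : (dat s a S ρ t).Ok (pα ℂ K S.F) (pβ ℂ K S.F) ρ} (W : Spc h)

theorem exists_pur (hY : 0 < s.Y.N) (hr : 0 < S.P.N) (hg : Gn s.Ym a) :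
    ∃ (n : Gwb.Emb (sv s.Ym)) (p : Pur (Y := sv s.Ym) (S := S) W.em.i (W.m hY hr) n),
      p.e (some none) = some none ∧ (tm1 a s.Ym).bd = (n.T p.jU).bd := by
  obtain ⟨r, u, r1, r2⟩ := W.res
  have r3 := fun k => pure_of (Y := sv s.Ym) (S := S) (B := sv W.B) W.em.i (W.reg0 k) (u k)
    (r2 k).1 (r2 k).2
  have r4 : ∀ q, r .U q = 0 ∨ ∃ i l, r .U q = a i * s.Ym.y l := by
    rintro ⟨j, p | l⟩
    exacts [Or.inl (r1 _), Or.inr ⟨j, l, r1 _⟩]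
  have s1 := rs_own (snd (sv s.Ym) S) rfl
  refine ⟨
    { J := Jx
      T := fun k => ⟨(W.T0 k).io, r k⟩
      reg := fun k => (r3 k).1
      emb := isE_pad hg (fun k => ⟨(W.T0 k).io, r k⟩) .U (fun i l => (i, .inr l))
        (fun _ _ => r1 _) r4
      nt := W.nt0 hY
      cod := cod_of_zero (fun k => ⟨(W.T0 k).io, r k⟩) .U (0, .inl (0, 0)) (r1 _) },
    { e := Equiv.refl _, jU := .U
      rsS := ⟨_, End36.rs_reg s1 ⟨(0 : Fin (S.P.N + 1)), (map_ne_zero _).2 (S.P.y_ne 0)⟩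
        (End36.reg_own S), W.rs_S, s1⟩
      rsY := fun k => (r3 k).2
      f := Equiv.refl _, cv := fun _ _ => rfl, dv := W.dvm }, rfl, ?_⟩
  exact (bd_tm1 h.a).symm.trans (bd_eq
    ⟨(0, 0), mul_ne_zero (h.a 0) (s.Ym.y_ne 0)⟩ (fun p => ⟨(p.1, .inr p.2), r1 _⟩)
    fun q => (r4 q).imp_right fun ⟨i, l, h1⟩ => ⟨(i, l), h1⟩)

include W in
theorem exists_mst (hY : 0 < s.Y.N) (hS : IsProj S) (hr : 0 < S.P.N) (hg : Gn s.Ym a)
    (c : Cone F' S.P) (hc : IsProj (sv c.P))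
    (hgood : ∀ y : Pts s.Y, ¬ s.Bad y → At (mxf ℂ a) y (s.gp * s.gm) ∧
      (∃ x : Pts s.Yp, (lp x).O = (lp y).O ∧ At (oP s.Yp) x s.gp) ∧
      ∃ x : Pts s.Ym, (lp x).O = (lp y).O ∧ At (oP s.Ym) x s.gm) :
    ∃ M : Mst s (m1 h.a hg) S.P.N, Full M := by
  obtain ⟨γ, g1, g2, g3⟩ := W.exists_γ c
  obtain ⟨nn, p, p1, p2⟩ := exists_pur W hY hr hg
  have exc : ∀ w : Pts W.B, ¬ Form88.Iso (pair W.ζ γ) w →
      w ∈ Set.range W.em.i.map ∨ s.Bad (W.ζ.map w) := fun w hw => by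
    by_contra h0
    obtain ⟨h1, h2⟩ := not_or.1 h0
    obtain ⟨h3, ⟨xp, h4, -⟩, xm, h5, h6⟩ := hgood _ h2
    obtain ⟨k, h7, h8⟩ := Spc.fib (W := W) (fun f hf => W.ζ.π_mem hf) h3 h4 h5 h6 h1
    refine hw (iso_of W.ζ γ w h8 ?_)
    rintro _ (⟨f, hf, rfl⟩ | ⟨o, rfl⟩)
    exacts [Or.inl ⟨f, hf, rfl⟩, Or.inr (g3 w k h7 o)]
  have gp : LPb (snd (sv s.Yp) S) S.h (pb (pβ ℂ K S.F) (oP S.P)) := ⟨1, fun x g hg => by
    rw [div_one]
    exact hg.pb (Cns.snd_p _ _ _)⟩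
  exact ⟨
    { S := S, P := sv c.P, B := sv W.B, projS := hS, dimS := rfl, projP := hc
      m := W.m hY hr, ζ := W.ζ, σ := W.σ, γ := γ
      jA := some (some .A), jS := some none, jG := some (some .G)
      rsA := rs_own W.ζ rfl, rsS := rs_own W.σ rfl
      rsG := g1, bim := g2, ip := W.ep.i, im := W.em.i
      ip_ζ := W.ζ_end s.hp W.ep rfl, ip_σ := W.σ_end W.ep rfl
      im_ζ := W.ζ_end s.hm W.em rfl, im_σ := W.σ_end W.em rfl
      t := none, t_ne := h.rf.t_ne, dvp := W.dvp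
      gp := ⟨_, W.lpb_G, gp⟩
      n := nn, pur := p, pur_S := p1, pur_U := fun _ => p2, exc := exc },
    ⟨⟨ρ, t, h.rf, rfl, rfl, rfl, nofun, nofun, nofun, rfl, rfl⟩⟩⟩

end Fin

/-- **master spaces exist** -/
theorem mstStmt : MstStmt Full := by
  intro K _ _ s hd
  obtain ⟨n, a, ha, hg, hle, hgood⟩ := Pt39.exists_inp s
  have hg' : Gn s.Ym a := fun x => by
    obtain ⟨y, hy⟩ := exists_under s.hm x
    exact (hg y).imp fun j hj => ⟨hj.1, fun l => hy (hj.2 l)⟩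
  refine ⟨m1 ha hg', (inferInstance : Subsingleton Unit), fun r hr => ?_⟩
  obtain ⟨S, hS, rfl⟩ : ∃ S : SV, IsProj S ∧ S.P.N = r := ⟨pn r, isProj_pn r, rfl⟩
  obtain ⟨F', _, _, c, hc⟩ := exists_cone S hS
  obtain ⟨E, _, _, ρ, t, rf⟩ := exists_rf (PF ℂ K S.F)
  have h : (dat s a S ρ t).Ok (pα ℂ K S.F) (pβ ℂ K S.F) ρ :=
    ⟨isPF ℂ K S.F, rf, fun _ => rfl, fun _ => rfl, ha, s.gp_mem, s.gm_mem, s.hp, s.hm, hg, hle⟩
  obtain ⟨W⟩ := exists_spc pureStmt h c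
  exact exists_mst W (Pt39.N_pos s.Y (by omega)) hS hr hg' c hc hgood

end Crest.Agent.X262.Ms2
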