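import Crest.Agent.X262.Ms2.Tup
import Crest.Agent.X262.Ms2.Pn
import Crest.Agent.X262.Ms11.Bor0

/-!
# Row 262, road B (helper2), part 5: local study of the explicit tuples

* `Cone S F'`, `Cone.exists_vtx`, `Cone.exists_φ` : the cone over a projective space;
* `D.Ok α β ρ` : the hypotheses; `Ok.plus`, `Ok.vert` : recognition of the points of the ends;
* `Ok.of_plus`, `Ok.exists_vx` : the two families of regular points; `Ok.h2`, `Ok.isFr`.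
-/

set_option autoImplicit false

noncomputable section

namespace Crest.Agent.X262.Ms2

open Crest.Agent.X277 Crest.Agent.X277.Lef Crest.Agent.X277.AN.G1 Crest.Agent.X277.BD
  Crest.Agent.X277.BD.Br
open Crest.Agent.X277.Cns (IsRF lpR lpP Gn Un KV cm ra Ov)
open Crest.Agent.X277.Res.Out (IsFr)
open Crest.Agent.R274.Prod1_134 (IsPF)

variable {K F M E F' : Type} [Field K] [Algebra ℂ K] [Field F] [Algebra ℂ F] [Field M]
  [Algebra ℂ M] [Field E] [Algebra ℂ E] [Field F'] [Algebra ℂ F']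

/-! ### general lemmas -/

section Gen

variable {P Q : PModel ℂ K} {L N : LP E}

theorem of_self (L : LP E) : L.Of L.O :=
  ⟨le_rfl, fun f hf => ⟨f, hf, 1, one_mem _, by simp, mul_one f⟩⟩

theorem exists_pt (π : K →ₐ[ℂ] E) {i : Fin (P.N + 1)} (h : ∀ j, π (P.y j / P.y i) ∈ N.O) :
    ∃ x ∈ pat P i, ∀ f ∈ (lp x).O, π f ∈ N.O := by
  obtain ⟨x, hx, h1⟩ := AN.G1.exists_dom (i := i) (N.comap (Plc.ofHom π))
    fun j => ⟨Algebra.mem_top, h j⟩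
  exact ⟨x, hx, fun f hf => (h1.le hf).2⟩

theorem v_hom {L : LP K} {π : K →ₐ[ℂ] E} (h : ∀ f ∈ L.O, π f ∈ N.O) {f : K} (hf : f ∈ L.O) :
    N.v (π f) = L.v f :=
  (dom_le (L' := N.comap (Plc.ofHom π)) fun g hg => ⟨Algebra.mem_top, h g hg⟩).eq f hf

theorem le_of_gen {s : Set E} (h : L.Of (Algebra.adjoin ℂ s)) (h1 : ∀ a ∈ s, a ∈ N.O)
    (h2 : ∀ a ∈ s, N.v a = L.v a) : L.O ≤ N.O :=
  (Cns.of_dom h (Algebra.adjoin_le h1) (Cns.v_eq_of_adjoin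
    (fun _ ha => h.le (Algebra.subset_adjoin ha)) h1 h2)).le

theorem At.up {x : Pts P} {x' : Pts Q} (h : (lp x).O ≤ (lp x').O) {a : BD ℂ K} {g : K}
    (hg : At a x g) : At a x' g := fun V hV => hg V fun f hf => hV f (h hf)

theorem exists_under (h : oP P ∈ On Q) (x : Pts Q) : ∃ y : Pts P, (lp y).O ≤ (lp x).O := by
  obtain ⟨g, hg⟩ := h x
  obtain ⟨i, hi⟩ := hg.exists_mxf ⟨0, P.y_ne 0⟩
  obtain ⟨y, -, hy⟩ := AN.G1.exists_dom (i := i) (lp x) fun j => hi.div_mem (y_mem_Sec j)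
  exact ⟨y, hy.le⟩

theorem sec_val {g : K} (hg : g ∈ (oP P).Sec) (π : K →ₐ[ℂ] E) {V : ValuationSubring E}
    (hV : KV ℂ V) : ∃ l, π (g / P.y l) ∈ V := by
  obtain ⟨l, hl, -⟩ := exists_chart (P := P) ⟨cm π V, hV.cm π⟩
  exact ⟨l, (RZ.le_iff (V := ⟨cm π V, hV.cm π⟩) (P.y_ne l)).1 (hl ▸ hg _)⟩

theorem mem_prod {α : K →ₐ[ℂ] M} {β : F →ₐ[ℂ] M} (pf : IsPF α β) {S : PModel ℂ F}
    (z : Pts (Cns.prod P S pf)) :
    (∀ f ∈ (lp ((Cns.fst P S pf).map z)).O, α f ∈ (lp z).O) ∧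
      ∀ f ∈ (lp ((Cns.snd P S pf).map z)).O, β f ∈ (lp z).O :=
  ⟨fun _ hf => Cns.hom_mem (Cns.fst_p P S pf) hf, fun _ hf => Cns.hom_mem (Cns.snd_p P S pf) hf⟩

/-- the local ring of a point of a product, inside a local ring of an extension -/
theorem mk_le {α : K →ₐ[ℂ] M} {β : F →ₐ[ℂ] M} (pf : IsPF α β) {S : PModel ℂ F} (ρ : M →ₐ[ℂ] E)
    {x : Pts P} {s : Pts S} (h1 : ∀ f ∈ (lp x).O, ρ (α f) ∈ N.O)
    (h2 : ∀ f ∈ (lp s).O, ρ (β f) ∈ N.O) : ∀ f ∈ (lp (Cns.mk pf x s)).O, ρ f ∈ N.O := by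
  intro f hf
  rw [Cns.lp_mk] at hf
  exact ((Cns.lpP_dom pf (M := N.comap (Plc.ofHom ρ))
    (dom_le fun g hg => ⟨Algebra.mem_top, Algebra.mem_top, h1 g hg⟩)
    (dom_le fun g hg => ⟨Algebra.mem_top, Algebra.mem_top, h2 g hg⟩)).le hf).2

end Gen

/-! ### the cone -/

variable (F') in
/-- a projective space with one more coordinate -/
structure Cone (S : PModel ℂ F) where
  /-- the model -/
  P : PModel ℂ F'
  /-- the functions on the base -/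
  π : F →ₐ[ℂ] F'
  /-- the new coordinate -/
  τ : F'
  /-- the numbering -/
  e : Option (Fin (S.N + 1)) ≃ Fin (P.N + 1)
  rf : IsRF π τ
  y0 : P.y (e none) = τ
  y1 : ∀ k, P.y (e (some k)) = π (S.y k)

namespace Cone

variable {S : PModel ℂ F} (c : Cone F' S)

theorem exists_vtx : ∃ p ∈ pat c.P (c.e none), ∀ k, ev (c.π (S.y k) / c.τ) p = 0 := by
  obtain ⟨s⟩ : Nonempty (Pts S) := inferInstance
  obtain ⟨k₀, hk⟩ := exists_pat s
  have h := c.rf.inv.scale (S.y_ne k₀)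
  have h1 : ∀ k, c.π (S.y k) / c.τ = c.π (S.y k / S.y k₀) * (c.π (S.y k₀) * c.τ⁻¹) := fun k => by
    rw [← mul_assoc, ← map_mul, div_mul_cancel₀ _ (S.y_ne k₀), div_eq_mul_inv]
  have h2 : ∀ k, c.π (S.y k) / c.τ ∈ (lpR h (lp s) 0).O := fun k =>
    h1 k ▸ mul_mem (π_mem_lpR h (y_mem hk k)) (Cns.τ_mem_lpR h)
  obtain ⟨p, hp, h3⟩ := AN.G1.exists_dom (P := c.P) (i := c.e none) (lpR h (lp s) 0) fun j => by
    obtain ⟨_ | k, rfl⟩ := c.e.surjective j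
    · rw [div_self (c.P.y_ne _)]
      exact one_mem _
    · rw [c.y0, c.y1]
      exact h2 k
  refine ⟨p, hp, fun k => ?_⟩
  have h4 := y_mem hp (c.e (some k))
  rw [c.y0, c.y1] at h4
  refine (h3.eq _ h4).symm.trans ?_
  rw [h1, LP.v_mul _ (π_mem_lpR h (y_mem hk k)) (Cns.τ_mem_lpR h), Cns.lpR_v_τ, mul_zero]

theorem exists_φ {α : K →ₐ[ℂ] M} {β : F →ₐ[ℂ] M} (pf : IsPF α β) {ρ : M →ₐ[ℂ] E} {t : E}
    (h : IsRF ρ t) : ∃ φ : F' →ₐ[ℂ] E, (∀ f, φ (c.π f) = ρ (β f)) ∧ φ c.τ = t ∧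
      IsPF (ρ.comp α) φ :=
  ⟨c.rf.lift (ρ.comp β) t (Ms11.evp_comp_inj h β), c.rf.lift_π _ _ _, c.rf.lift_t _ _ _,
    Cns.isPF_symm (Ms11.isPF_rf c.rf (Cns.isPF_symm pf) h (c.rf.lift_π _ _ _)
      (c.rf.lift_t _ _ _))⟩

end Cone

/-! ### the hypotheses -/

namespace Dat

/-- the hypotheses on the data -/
structure Ok (D : Dat K F E) (α : K →ₐ[ℂ] M) (β : F →ₐ[ℂ] M) (ρ : M →ₐ[ℂ] E) : Prop where
  pf : IsPF α β
  rf : IsRF ρ D.t
  κ : ∀ f, D.κ f = ρ (α f)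
  σ : ∀ f, D.σ f = ρ (β f)
  a : ∀ j, D.a j ≠ 0
  gp : D.gp ≠ 0 ∧ D.gp ∈ (oP D.Yp).Sec
  gm : D.gm ≠ 0 ∧ D.gm ∈ (oP D.Ym).Sec
  hp : oP D.Y ∈ On D.Yp
  hm : oP D.Y ∈ On D.Ym
  gn : Gn D.Y D.a
  le : oP D.Yp + oP D.Ym ≤ mxf ℂ D.a

variable {D : Dat K F E} {α : K →ₐ[ℂ] M} {β : F →ₐ[ℂ] M} {ρ : M →ₐ[ℂ] E} (h : D.Ok α β ρ)
  {N : LP E}

namespace Ok

include h

theorem ne : D.Ne := ⟨h.a, h.gp.1, h.gm.1, h.rf.t_ne⟩

theorem exists_bas {Q : PModel ℂ K} (hQ : oP D.Y ∈ On Q) (x : Pts Q) : ∃ i j,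
    At (mxf ℂ D.a) x (D.a j) ∧
      ∀ O : Subalgebra ℂ E, (∀ f ∈ (lp x).O, D.κ f ∈ O) → D.Bas O i j := by
  obtain ⟨y, hy⟩ := exists_under hQ x
  obtain ⟨i, hi⟩ := exists_pat y
  obtain ⟨j, h1, h2⟩ := h.gn y
  have h3 : At (mxf ℂ D.a) x (D.a j) := At.up hy (at_mxf h1 h2)
  have h4 : ∀ {f g : K}, f ∈ (oP D.Yp).Sec → g ∈ (oP D.Ym).Sec → f * g / D.a j ∈ (lp x).O :=
    fun hf hg => h3.div_mem (Sec_mono h.le (mul_mem_Sec hf hg))
  exact ⟨i, j, h3, fun O hO => ⟨fun l => hO _ (hy (y_mem hi l)), fun l => hO _ (hy (h2 l)),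
    fun l => hO _ (h4 h.gp.2 (y_mem_Sec l)), fun l => hO _ (h4 (y_mem_Sec l) h.gm.2),
    hO _ (h4 h.gp.2 h.gm.2)⟩⟩

theorem up_eq (k : Fin (D.S.N + 1)) : D.up k = D.t * ρ (α D.gp * β (D.S.y k))⁻¹ := by
  rw [map_inv₀, map_mul, ← h.κ, ← h.σ, up, div_eq_mul_inv]

theorem um_eq' (p : D.ι) (l : Fin (D.Ym.N + 1)) :
    D.um p l = D.t⁻¹ * ρ (α (D.a p.1 * D.Ym.y l / D.gm ^ 2) * β (D.S.y p.2)) := by
  rw [um_eq h.ne, map_mul, ← h.κ, ← h.σ, div_div_eq_mul_div, div_eq_inv_mul, mul_comm (D.μ _)]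

theorem cp_ne (k : Fin (D.S.N + 1)) : (α D.gp * β (D.S.y k))⁻¹ ≠ 0 :=
  inv_ne_zero (mul_ne_zero ((map_ne_zero α).2 h.gp.1) ((map_ne_zero β).2 (D.S.y_ne k)))

theorem c_ne (j : Fin (D.n + 1)) (l : Fin (D.Ym.N + 1)) : D.a j * D.Ym.y l / D.gm ^ 2 ≠ 0 :=
  div_ne_zero (mul_ne_zero (h.a j) (D.Ym.y_ne l)) (pow_ne_zero 2 h.gm.1)

theorem cm_ne (p : D.ι) (l : Fin (D.Ym.N + 1)) :
    α (D.a p.1 * D.Ym.y l / D.gm ^ 2) * β (D.S.y p.2) ≠ 0 :=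
  mul_ne_zero ((map_ne_zero α).2 (h.c_ne p.1 l)) ((map_ne_zero β).2 (D.S.y_ne p.2))

theorem rfp (k : Fin (D.S.N + 1)) : IsRF ρ (D.up k) := by
  rw [h.up_eq, mul_comm]
  exact h.rf.scale (h.cp_ne k)

theorem rfm (p : D.ι) (l : Fin (D.Ym.N + 1)) : IsRF ρ (D.um p l) := by
  rw [h.um_eq', mul_comm]
  exact h.rf.inv.scale (h.cm_ne p l)

theorem μ_div (k l : Fin (D.S.N + 1)) : D.μ l / D.μ k = ρ (β (D.S.y l / D.S.y k)) := by
  rw [← h.σ, map_div₀]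

theorem um_mul (j : Fin (D.n + 1)) (l : Fin (D.Ym.N + 1)) (k k' : Fin (D.S.N + 1)) :
    D.um (j, k') l = D.um (j, k) l * ρ (β (D.S.y k' / D.S.y k)) := by
  have e := μ_ne (D := D) k
  rw [← h.μ_div]
  simp only [um]
  field_simp

/-- recognition of the points of the trivial end -/
theorem plus {o : D.io .P} (h1 : ∀ o', D.y .P o' / D.y .P o ∈ N.O) {k : Fin (D.S.N + 1)}
    (h2 : D.up k ∈ N.O) (h3 : N.v (D.up k) = 0) :
    ∃ x : Pts D.Yp, ∀ f ∈ (lp x).O, D.κ f ∈ N.O := by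
  rcases o with _ | ⟨l, k'⟩
  · obtain ⟨V, hV, hd⟩ := Cns.exists_val_dom N
    obtain ⟨l, hl⟩ := sec_val h.gp.2 D.κ (KV.of_le hV)
    refine absurd h3 ((hd _ h2).1 ⟨(h.rfp k).t_ne, hV _ h2, ?_⟩)
    have e := κ_ne (D := D) (D.Yp.y_ne l)
    convert mul_mem hl (hV _ (h1 (some (l, k)))) using 1
    simp only [y, up, Option.elim, map_div₀, inv_div]
    field_simp
  · obtain ⟨x, -, hx⟩ := exists_pt (N := N) (i := l) D.κ fun l' => by
      have h4 := h1 (some (l', k'))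
      simp only [y, Option.elim] at h4
      rwa [mul_div_mul_right _ _ (μ_ne k'), ← map_div₀] at h4
    exact ⟨x, hx⟩

/-- recognition of the points of the concave end -/
theorem vert {q : D.ιU} (h1 : ∀ q', D.yU q' / D.yU q ∈ N.O)
    (h2 : ∀ k, D.yC (some (q, k)) / D.yC none ∈ N.O ∧
      N.v (D.yC (some (q, k)) / D.yC none) = 0) :
    ∃ x : Pts D.Ym, ∀ f ∈ (lp x).O, D.κ f ∈ N.O := by
  obtain ⟨j, ⟨j', k⟩ | l⟩ := q
  · obtain ⟨V, hV, hd⟩ := Cns.exists_val_dom N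
    obtain ⟨l, hl⟩ := sec_val h.gm.2 D.κ (KV.of_le hV)
    refine absurd (h2 k).2 ((hd _ (h2 k).1).1
      ⟨div_ne_zero (h.ne.yC _) (h.ne.yC _), hV _ (h2 k).1, ?_⟩)
    have e1 := κ_ne (D := D) (D.Ym.y_ne l)
    have e2 := κ_ne (D := D) (h.a j)
    have e3 := κ_ne (D := D) (h.a j')
    have e4 := μ_ne (D := D) k
    convert mul_mem (pow_mem hl 2) (mul_mem (hV _ (h1 (j, .inr l))) (hV _ (h1 (j', .inr l))))
      using 1
    simp only [yC, yU, Option.elim, Sum.elim_inl, Sum.elim_inr, map_div₀, inv_div]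
    field_simp
  · obtain ⟨x, -, hx⟩ := exists_pt (N := N) (i := l) D.κ fun l' => by
      have h4 := h1 (j, .inr l')
      rwa [yU_inr h.ne, mul_div_mul_left _ _ (h.a j)] at h4
    exact ⟨x, hx⟩

/-- the affine lines over the trivial end -/
theorem of_plus (z : Pts (Cns.prod D.Yp D.S h.pf)) {k : Fin (D.S.N + 1)}
    (hk : (Cns.snd _ _ h.pf).map z ∈ pat D.S k) (c : ℂ) :
    (∃ c', (lpR (h.rfp k) (lp z) c).Of (mch D.y c')) ∧
      ∀ l, D.μ l / D.μ k ∈ (lpR (h.rfp k) (lp z) c).O := by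
  obtain ⟨h1, h2⟩ := mem_prod h.pf z
  obtain ⟨l, hl⟩ := exists_pat ((Cns.fst _ _ h.pf).map z)
  obtain ⟨i, j, -, hb⟩ := h.exists_bas h.hp ((Cns.fst _ _ h.pf).map z)
  have h3 : ∀ f ∈ (lp ((Cns.fst _ _ h.pf).map z)).O, D.κ f ∈ (lpR (h.rfp k) (lp z) c).O :=
    fun f hf => h.κ f ▸ π_mem_lpR _ (h1 f hf)
  have h4 : ∀ l, D.μ l / D.μ k ∈ (lpR (h.rfp k) (lp z) c).O := fun l =>
    h.μ_div k l ▸ π_mem_lpR _ (h2 _ (y_mem hk l))
  have h5 := Cns.lpP_of' h.pf (lp_of hl) (lp_of hk)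
  rw [← Cns.lp_prod] at h5
  refine ⟨⟨D.cp i (j, k) l, Cns.of_mono (lpR_of' _ h5 c) (Cns.ra_le (fun f hf => ?_) ?_)
    (mch_cp (p := (j, k)) (hb _ h3) h.ne h4 (fun l' => h3 _ (y_mem hl l'))
      (h3 _ ((at_y hl).div_mem h.gp.2)) (Cns.τ_mem_lpR _))⟩, h4⟩
  · have h7 : R274.Prod4_134.pr α β (D.Yp.A l) (D.S.A k) ≤ (mch D.y (D.cp i (j, k) l)).comap ρ := by
      refine R274.Prod4_134.pr_le (fun a ha => ?_) fun a ha => ?_
      · refine Algebra.adjoin_le (S := ((mch D.y (D.cp i (j, k) l)).comap ρ).comap α) ?_ ha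
        rintro _ ⟨l', rfl⟩
        have h6 := div_mem_mch (s := D.y) (D.cp i (j, k) l) .P (some (l', k))
        simp only [y, cp, Option.elim] at h6
        rwa [mul_div_mul_right _ _ (μ_ne k), ← map_div₀, h.κ] at h6
      · refine Algebra.adjoin_le (S := ((mch D.y (D.cp i (j, k) l)).comap ρ).comap β) ?_ ha
        rintro _ ⟨l', rfl⟩
        have h6 := div_mem_mch (s := D.y) (D.cp i (j, k) l) .G (some l')
        simp only [y, cp, yG, Option.elim] at h6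
        rwa [mul_div_mul_left _ _ (κ_ne h.gp.1), h.μ_div] at h6
    exact h7 hf
  · exact div_mem_mch (s := D.y) (D.cp i (j, k) l) .G none

/-- the points of the contracted concave end -/
theorem exists_vx (c : Cone F' D.S) (x : Pts D.Ym) :
    ∃ (L : LP E) (j : Fin (D.n + 1)) (l : Fin (D.Ym.N + 1)), x ∈ pat D.Ym l ∧
      At (mxf ℂ D.a) x (D.a j) ∧ (Reg L ∧ ∃ c', L.Of (mch D.y c')) ∧
      L.Of (Algebra.adjoin ℂ ((fun f => ρ (α f)) '' (lp x).O ∪ Set.range fun k => D.um (j, k) l)) ∧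
      ∀ k, L.v (D.um (j, k) l) = 0 := by
  obtain ⟨l, hl⟩ := exists_pat x
  obtain ⟨i, j, hj, hb⟩ := h.exists_bas h.hm x
  obtain ⟨p, hp, hv⟩ := c.exists_vtx
  obtain ⟨φ, h1, h2, h3⟩ := c.exists_φ h.pf
    (h.rf.scale (inv_ne_zero ((map_ne_zero α).2 (h.c_ne j l))))
  have h4 : ∀ k, φ (c.π (D.S.y k) / c.τ) = D.um (j, k) l := fun k => by
    rw [map_div₀, h1, h2, um_eq h.ne, map_inv₀, ← h.κ, ← h.σ, ← div_eq_inv_mul]
  have h5 : ∀ k, c.π (D.S.y k) / c.τ ∈ (lp p).O := fun k => by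
    have := y_mem hp (c.e (some k))
    rwa [c.y0, c.y1] at this
  have h6 : ∀ f ∈ (lp x).O, D.κ f ∈ (lpP h3 (lp x) (lp p)).O := fun f hf =>
    h.κ f ▸ ((Cns.dom_lpP_left h3 _ _).le hf).2
  have h7 : ∀ k, D.um (j, k) l ∈ (lpP h3 (lp x) (lp p)).O := fun k =>
    h4 k ▸ ((Cns.dom_lpP_right h3 _ _).le (h5 k)).2
  have key : ∀ {A : Subalgebra ℂ K} {B : Subalgebra ℂ E}, (lp x).Of A → (∀ a ∈ A, ρ (α a) ∈ B) →
      (∀ k, D.um (j, k) l ∈ B) → B ≤ (lpP h3 (lp x) (lp p)).O → (lpP h3 (lp x) (lp p)).Of B := by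
    intro A B hA e1 e2 e3
    refine Cns.of_mono (Cns.lpP_of' h3 hA (lp_of hp))
      (R274.Prod4_134.pr_le e1 fun a ha => ?_) e3
    refine Algebra.adjoin_le (S := B.comap φ) ?_ ha
    rintro _ ⟨o, rfl⟩
    obtain ⟨_ | k, rfl⟩ := c.e.surjective o
    · beta_reduce
      rw [div_self (c.P.y_ne _)]
      exact one_mem _
    · beta_reduce
      rw [c.y0, c.y1]
      change φ _ ∈ B
      rw [h4]
      exact e2 k
  refine ⟨lpP h3 (lp x) (lp p), j, l, hl, hj, ⟨Cns.lp_mk h3 x p ▸ reg_lp _, D.cm i j l,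
    key (lp_of hl) (fun a ha => ?_)
      (fun k => div_mem_mch (s := D.y) (D.cm i j l) .C (some ((j, .inr l), k)))
      (mch_cm (hb _ h6) h.ne (fun l' => h6 _ (y_mem hl l'))
        (h6 _ ((at_y hl).div_mem h.gm.2)) h7)⟩,
    key (of_self _) (fun a ha => Algebra.subset_adjoin (Or.inl ⟨a, ha, rfl⟩))
      (fun k => Algebra.subset_adjoin (Or.inr ⟨k, rfl⟩)) (Algebra.adjoin_le ?_), fun k => ?_⟩
  · refine Algebra.adjoin_le (S := ((mch D.y (D.cm i j l)).comap ρ).comap α) ?_ ha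
    rintro _ ⟨l', rfl⟩
    have h8 := div_mem_mch (s := D.y) (D.cm i j l) .U (j, .inr l')
    simp only [y, Dat.cm] at h8
    rwa [yU_inr h.ne, mul_div_mul_left _ _ (h.a j), h.κ] at h8
  · rintro _ (⟨a, ha, rfl⟩ | ⟨k, rfl⟩)
    exacts [(h.κ a ▸ h6 a ha : ρ (α a) ∈ _), h7 k]
  · rw [← h4]
    exact ((Cns.dom_lpP_right h3 _ _).eq _ (h5 k)).trans (hv k)

/-- either `μ` is regular, or all coordinates of `C` but the first vanish -/
theorem dich {o : D.io .C} (h1 : ∀ o', D.yC o' / D.yC o ∈ N.O) :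
    (∀ q k, D.yC (some (q, k)) / D.yC none ∈ N.O ∧ N.v (D.yC (some (q, k)) / D.yC none) = 0) ∨
      ∃ q k, ∀ o', D.yC o' / D.yC (some (q, k)) ∈ N.O := by
  rcases o with _ | ⟨q, k⟩
  · by_cases h2 : ∀ q k, N.v (D.yC (some (q, k)) / D.yC none) = 0
    · exact Or.inl fun q k => ⟨h1 _, h2 q k⟩
    · push Not at h2
      obtain ⟨q, k, h2⟩ := h2
      refine Or.inr ⟨q, k, fun o' => ?_⟩
      have h3 := LP.div_mem (h1 o') h2
      rwa [div_div_div_cancel_right₀ (h.ne.yC none)] at h3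
  · exact Or.inr ⟨q, k, h1⟩

theorem isFr (c : ∀ j, D.io j) : IsFr (mch D.y c) := by
  refine frac_of_subfield fun T hT x => ?_
  have h0 : ∀ a : ℂ, algebraMap ℂ E a ∈ T := fun a => hT _ (algebraMap_mem _ a)
  have h1 : ∀ j o o', D.y j o / D.y j o' ∈ T := fun j o o' => by
    rw [← div_div_div_cancel_right₀ (h.ne.y j (c j))]
    exact div_mem (hT _ (div_mem_mch c j o)) (hT _ (div_mem_mch c j o'))
  have h2 : ∀ f, D.κ f ∈ T := mem_of_chart (P := D.Y) (i := 0) h0 fun l => by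
    rw [map_div₀]
    exact h1 .A l 0
  have h3 : ∀ f, D.σ f ∈ T := mem_of_chart (P := D.S) (i := 0) h0 fun l => by
    have h4 := h1 .G (some l) (some 0)
    simp only [y, yG, Option.elim] at h4
    rwa [mul_div_mul_left _ _ (κ_ne h.gp.1), ← map_div₀] at h4
  refine h.rf.mem_subfield T (Cns.pf_mem_subfield h.pf (T.comap (ρ : M →+* E))
    (fun a => ?_) fun a => ?_) ?_ x
  · exact (h.κ a ▸ h2 a : ρ (α a) ∈ T)
  · exact (h.σ a ▸ h3 a : ρ (β a) ∈ T)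
  · have h4 := mul_mem (h1 .G none (some 0)) (mul_mem (h2 D.gp) (h3 (D.S.y 0)))
    simp only [y, yG, Option.elim] at h4
    rwa [div_mul_cancel₀ _ (mul_ne_zero (κ_ne h.gp.1) (μ_ne 0))] at h4

end Ok

end Dat

end Crest.Agent.X262.Ms2
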