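import Crest.Agent.X262.Res.Defs
import Crest.Agent.X277.Res.LogD
import Crest.Agent.X277.Cns.PBL

/-!
# Row 262, road B (helper2), part 1: families of tuples and the strong resolution

* `mch s c`      : the chart ring of a family of tuples;  `Emb P s` : the family embeds `P`;
* `dom_le`, `fr L B`, `of_fr` : calculus of localisations;
* `coords_lpR`   : coordinates on the line over a point;
* `exists_res`   : a smooth model on which all tuples are regular, and which contains every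
  regular point of the product model.
-/

set_option autoImplicit false
set_option linter.style.haveILetI false

noncomputable section

namespace Crest.Agent.X262.Ms2

open Crest.Agent.X277 Crest.Agent.X277.Lef Crest.Agent.X277.AN.G1 Crest.Agent.X277.Cns
open Crest.Agent.X277.Res.Out (Coords lo IsFr)
open Crest.Agent.X277.Res.Log (lo_eq lp_O un_iff_v van_iff_v coords_of_crd)
open scoped KaehlerDifferential

variable {F E : Type} [Field F] [Algebra ℂ F] [Field E] [Algebra ℂ E]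

/-! ### local rings -/

section Loc

variable {L L' : LP F} {A B : Subalgebra ℂ F} {f g : F}

/-- an inclusion of local rings with residue field `ℂ` is a domination -/
theorem dom_le (h : L.O ≤ L'.O) : L.Dom L' := by
  refine ⟨h, fun f hf => ?_⟩
  have h1 : f - algebraMap ℂ F (L'.v f) ∈ L.O := sub_mem hf (algebraMap_mem _ _)
  by_contra h2
  have h3 : L.v (f - algebraMap ℂ F (L'.v f)) ≠ 0 := by
    rw [LP.v_sub hf (algebraMap_mem _ _), L.v_alg]
    exact sub_ne_zero.2 (Ne.symm h2)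
  exact LP.ne_of_inv_mem (h h1) (LP.ne_zero_of_ne h3) (h (L.inv_mem h3)) (LP.v_sub_v (h hf))

/-- the localisation of `B` at the centre of `L` -/
def fr (h : B ≤ L.O) : LP F := lpAt (L.hom.comp (Subalgebra.inclusion h))

theorem fr_dom (h : B ≤ L.O) : (fr h).Dom L := lpAt_dom _ h fun _ => rfl

theorem fr_of (h : B ≤ L.O) : (fr h).Of B := LP.of_lpAt _

theorem mem_fr (h : B ≤ L.O) (hf : f ∈ B) : f ∈ (fr h).O := (fr_of h).le hf

theorem div_mem_fr (h : B ≤ L.O) (hf : f ∈ (fr h).O) (hg : g ∈ (fr h).O) (h0 : L.v g ≠ 0) :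
    f / g ∈ (fr h).O := LP.div_mem hf (by rwa [← (fr_dom h).eq g hg])

theorem fr_eq (h : L.Of B) : fr h.le = L :=
  (eq_of_dom_of (fr_dom h.le) h (fr_of h.le).le)

/-- change of the ring which is localised -/
theorem of_fr (hA : L.Of A) (hB : B ≤ L.O) (h : A ≤ (fr hB).O) : L.Of B :=
  eq_of_dom_of (fr_dom hB) hA h ▸ fr_of hB

theorem der_mem {s : Set F} (h : L.Of (Algebra.adjoin ℂ s)) (D : Derivation ℂ F F)
    (hs : ∀ a ∈ s, D a ∈ L.O) : ∀ f ∈ L.O, D f ∈ L.O := by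
  have h1 : ∀ a ∈ Algebra.adjoin ℂ s, D a ∈ L.O := fun a ha =>
    Algebra.adjoin_induction (p := fun a _ => D a ∈ L.O) hs
      (fun c => by rw [Derivation.map_algebraMap]; exact zero_mem _)
      (fun a b _ _ h1 h2 => by rw [map_add]; exact add_mem h1 h2)
      (fun a b ha hb h1 h2 => by
        rw [Derivation.leibniz]
        exact add_mem (mul_mem (h.le ha) h2) (mul_mem (h.le hb) h1)) ha
  intro f hf
  obtain ⟨a, ha, c, hc, h0, h2⟩ := h.loc f hf
  have h3 : D f = (D a - f * D c) / c := by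
    rw [eq_div_iff (LP.ne_zero_of_ne h0), ← h2, Derivation.leibniz, smul_eq_mul, smul_eq_mul]
    ring
  rw [h3]
  exact LP.div_mem (sub_mem (h1 a ha) (mul_mem hf (h1 c hc))) h0

theorem coords_of {n : ℕ} {z : Fin n → F} (hz : L.Crd z) (d : Fin n → Derivation ℂ F F)
    (h1 : ∀ l, ∀ x ∈ L.O, d l x ∈ L.O) (h2 : ∀ l j, d l (z j) = if l = j then 1 else 0) :
    Coords L.O fun l => z l - algebraMap ℂ F (L.v (z l)) := by
  refine ⟨fun l => van_iff_v.2 ⟨sub_mem (hz.mem l) (algebraMap_mem _ _), LP.v_sub_v (hz.mem l)⟩,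
    fun f hf => ?_, d, h1, fun l j => ?_⟩
  · obtain ⟨c, hc, h⟩ := hz.gen f hf.1
    exact ⟨c, hc, by simpa only [(van_iff_v.1 hf).2, map_zero, zero_add] using h⟩
  · rw [map_sub, Derivation.map_algebraMap, sub_zero, h2]

/-- the local ring has coordinates -/
def Reg (L : LP F) : Prop := ∃ (n : ℕ) (z : Fin n → F), Coords L.O z

theorem reg_lp {P : PModel ℂ F} (x : Pts P) : Reg (lp x) := by
  haveI := P.isFractionRing 0
  haveI : Algebra.EssFiniteType (P.A 0) F :=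
    Algebra.EssFiniteType.of_isLocalization F (nonZeroDivisors (P.A 0))
  haveI := Algebra.EssFiniteType.comp ℂ (P.A 0) F
  obtain ⟨i, hi⟩ := exists_pat x
  obtain ⟨z, -, h1, h2⟩ := exists_crd_A (Module.finBasis F Ω[F⁄ℂ]) hi
  exact ⟨_, z, coords_of_crd (Module.finBasis F Ω[F⁄ℂ]) h2 h1⟩

variable {π : F →ₐ[ℂ] E} {τ : E} (h : IsRF π τ)

theorem Reg.lpR (hL : Reg L) (c : ℂ) : Reg (lpR h L c) := by
  obtain ⟨n, z, hz⟩ := hL
  obtain ⟨d, hd, hd'⟩ := hz.der
  choose D hD using fun l => h.der (d l) 0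
  obtain ⟨D₀, hD₀⟩ := h.der 0 1
  have h3 := lpR_of h (L := L) (c := c)
  have h4 := h3
  rw [ra_eq_adjoin] at h4
  refine ⟨_, _, coords_of (crd_lpR h (Res.Log.crd_of_coords hz))
    (Fin.cons D₀ D : Fin (n + 1) → Derivation ℂ E E) (fun l => der_mem h4 _ ?_) fun l j => ?_⟩
  · rintro _ (rfl | ⟨a, ha, rfl⟩) <;> refine Fin.cases ?_ (fun l => ?_) l
    · rw [Fin.cons_zero, hD₀.2]; exact one_mem _
    · rw [Fin.cons_succ, (hD l).2]; exact zero_mem _
    · rw [Fin.cons_zero, hD₀.1]; simp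
    · rw [Fin.cons_succ, (hD l).1]; exact h3.le (π_mem_ra (hd l a ha))
  · refine Fin.cases ?_ (fun l => ?_) l <;> refine Fin.cases ?_ (fun j => ?_) j
    · simp [hD₀.2]
    · simp [hD₀.1, (Fin.succ_ne_zero j).symm]
    · simp [(hD l).2]
    · simp [(hD l).1, hd']

theorem lpR_of' (hL : L.Of A) (c : ℂ) : (lpR h L c).Of (ra π A τ) := by
  have h1 := lpR_of h (L := L) (c := c)
  have h2 : ra π A τ ≤ (lpR h L c).O := (ra_mono hL.le).trans h1.le
  refine of_fr h1 h2 (ra_le (fun f hf => ?_) (mem_fr h2 τ_mem_ra))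
  obtain ⟨a, ha, b, hb, h0, h3⟩ := hL.loc f hf
  rw [show f = a / b by rw [← h3, mul_div_cancel_right₀ _ (LP.ne_zero_of_ne h0)], map_div₀]
  exact div_mem_fr h2 (mem_fr h2 (π_mem_ra ha)) (mem_fr h2 (π_mem_ra hb))
    (by rwa [← (dom_lpR h L c).eq b (hL.le hb)] at h0)

theorem π_mem_lpR {c : ℂ} (hf : f ∈ L.O) : π f ∈ (lpR h L c).O := (lpR_of h).le (π_mem_ra hf)

theorem v_lpR {c : ℂ} (hf : f ∈ L.O) : (lpR h L c).v (π f) = L.v f := (dom_lpR h L c).eq f hf

/-- the local ring over `L` which contains `τ` -/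
theorem lpR_le {M : LP E} (h1 : ∀ f ∈ L.O, π f ∈ M.O) (h2 : τ ∈ M.O) :
    (lpR h L (M.v τ)).O ≤ M.O :=
  (lpR_dom h (dom_le fun f hf => ⟨Algebra.mem_top, h1 f hf⟩) h2 rfl).le

end Loc

/-! ### families of tuples -/

section Fam

variable {J : Type} {io : J → Type} (s : ∀ j, io j → F)

/-- the chart ring of a family of tuples -/
def mch (c : ∀ j, io j) : Subalgebra ℂ F :=
  Algebra.adjoin ℂ {f | ∃ j i, f = s j i / s j (c j)}

/-- the family of tuples embeds `P` in a product of projective spaces -/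
def Emb (P : PModel ℂ F) : Prop :=
  ∀ x : Pts P, ∃ c, (∀ j, s j (c j) ≠ 0) ∧ (lp x).Of (mch s c)

variable {s} {c c' : ∀ j, io j} {L : LP F} {P : PModel ℂ F}

theorem div_mem_mch (c : ∀ j, io j) (j : J) (i : io j) : s j i / s j (c j) ∈ mch s c :=
  Algebra.subset_adjoin ⟨j, i, rfl⟩

theorem mch_le {B : Subalgebra ℂ F} (h : ∀ j i, s j i / s j (c j) ∈ B) : mch s c ≤ B :=
  Algebra.adjoin_le (by rintro _ ⟨j, i, rfl⟩; exact h j i)

/-- change of the chart -/
theorem of_mch (h : L.Of (mch s c)) (hc : ∀ j, s j (c j) ≠ 0) (hc' : ∀ j, s j (c' j) ≠ 0)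
    (h' : mch s c' ≤ L.O) : L.Of (mch s c') := by
  refine of_fr h h' (mch_le fun j i => ?_)
  rw [← div_div_div_cancel_right₀ (hc' j)]
  refine div_mem_fr h' (mem_fr h' (div_mem_mch c' j i)) (mem_fr h' (div_mem_mch c' j _))
    (LP.ne_of_inv_mem (h' (div_mem_mch c' j _)) (div_ne_zero (hc j) (hc' j)) ?_)
  rw [inv_div]
  exact h.le (div_mem_mch c j _)

theorem Emb.gn (h : Emb s P) (j : J) : Gn P (s j) := fun x => by
  obtain ⟨c, h1, h2⟩ := h x
  exact ⟨c j, h1 j, fun i => h2.le (div_mem_mch c j i)⟩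

theorem Emb.of (h : Emb s P) {x : Pts P} (hc : ∀ j, s j (c j) ≠ 0) (h' : mch s c ≤ (lp x).O) :
    (lp x).Of (mch s c) := by
  obtain ⟨c', h1, h2⟩ := h x
  exact of_mch h2 h1 hc h'

/-- a family which contains the coordinates of `P` embeds `P` -/
theorem emb_of (h : ∀ j, Gn P (s j)) (j : J) (e : Fin (P.N + 1) → io j)
    (he : Function.Surjective e) {u : F} (hu : u ≠ 0) (hy : ∀ i, s j (e i) = u * P.y i) :
    Emb s P := fun x => by
  choose c h1 h2 using fun j => h j x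
  obtain ⟨i, hi⟩ := he (c j)
  have h3 : ∀ l, P.y l / P.y i = s j (e l) / s j (c j) := fun l => by
    rw [← hi, hy, hy, mul_div_mul_left _ _ hu]
  have hx : x ∈ pat P i := mem_pat_of_mem fun l => h3 l ▸ h2 j _
  refine ⟨c, h1, of_mono (lp_of hx) (Algebra.adjoin_le ?_) (mch_le h2)⟩
  rintro _ ⟨l, rfl⟩
  change P.y l / P.y i ∈ mch s c
  rw [h3]
  exact div_mem_mch c j _

/-- the chart `c'` of a valuation ring which dominates `L` is a chart of `L` -/
theorem mch_le_of_val (h : mch s c ≤ L.O) (hc : ∀ j, s j (c j) ≠ 0) (hc' : ∀ j, s j (c' j) ≠ 0)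
    {V : ValuationSubring F} (h1 : ∀ f ∈ L.O, f ∈ V) (h2 : ∀ f ∈ L.O, Un V f → L.v f ≠ 0)
    (h3 : ∀ j i, s j i / s j (c' j) ∈ V) : mch s c' ≤ L.O := mch_le fun j i => by
  rw [← div_div_div_cancel_right₀ (hc j)]
  refine LP.div_mem (h (div_mem_mch c j i)) (h2 _ (h (div_mem_mch c j _))
    ⟨div_ne_zero (hc' j) (hc j), h1 _ (h (div_mem_mch c j _)), ?_⟩)
  rw [inv_div]
  exact h3 j _

/-- every point of a chart is a point of the model -/
theorem Emb.exists_lp (h : Emb s P) (hc : ∀ j, s j (c j) ≠ 0) (hL : L.Of (mch s c)) :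
    ∃ x : Pts P, lp x = L := by
  obtain ⟨V, h1, h2⟩ := exists_val_dom L
  obtain ⟨x, hx⟩ := exists_ov P (KV.of_le h1)
  obtain ⟨c', h3, h4⟩ := h x
  have h5 := mch_le_of_val hL.le hc h3 h1 (fun f hf => (h2 f hf).1)
    fun j i => hx _ (h4.le (div_mem_mch c' j i))
  refine ⟨x, eq_of_dom_of (dom_le fun f hf => ?_) (of_mch hL hc h3 h5) h4.le⟩
  obtain ⟨a, ha, b, hb, h0, h6⟩ := h4.loc f hf
  rw [show f = a / b by rw [← h6, mul_div_cancel_right₀ _ (LP.ne_zero_of_ne h0)]]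
  exact LP.div_mem (h5 ha) ((h2 b (h5 hb)).1 (hx.un h0))

instance [Finite J] [∀ j, Finite (io j)] (c : ∀ j, io j) : Algebra.FiniteType ℂ (mch s c) :=
  (Subalgebra.fg_iff_finiteType _).1 ⟨(Set.finite_range fun p : Σ j, io j =>
    s p.1 p.2 / s p.1 (c p.1)).toFinset, by
      rw [Set.Finite.coe_toFinset, mch]
      congr 1
      ext f
      exact ⟨fun ⟨p, h⟩ => ⟨p.1, p.2, h.symm⟩, fun ⟨j, i, h⟩ => ⟨⟨j, i⟩, h.symm⟩⟩⟩

/-- the charts of an embedding are smooth -/
theorem Emb.smooth [Finite J] [∀ j, Finite (io j)] (h : Emb s P) (hc : ∀ j, s j (c j) ≠ 0) :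
    Algebra.Smooth ℂ (mch s c) := smooth_of_lp _ fun L hL => by
  obtain ⟨x, rfl⟩ := h.exists_lp hc hL
  exact lp_fs x

theorem chI_prod [Fintype J] (hs : ∀ j i, s j i ≠ 0) (c : ∀ j, io j) :
    chI ℂ (fun c : ∀ j, io j => ∏ j, s j (c j)) c = mch s c := by
  classical
  refine le_antisymm (chI_le fun c' => ?_) (mch_le fun j i => ?_)
  · rw [← Finset.prod_div_distrib]
    exact prod_mem fun j _ => div_mem_mch c j _
  · have h1 := div_mem_chI ℂ (fun c : ∀ j, io j => ∏ j, s j (c j)) c (Function.update c j i)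
    rwa [← Finset.prod_div_distrib, Finset.prod_eq_single j
      (fun j' _ hj => by rw [Function.update_of_ne hj, div_self (hs _ _)]) (by simp),
      Function.update_self] at h1

/-- **resolution**: all tuples become regular, regular points of the product model are kept -/
theorem exists_res (hP : Res.PlusStmt ℂ) [Fintype J] [∀ j, Finite (io j)] [∀ j, Nonempty (io j)]
    (hs : ∀ j i, s j i ≠ 0) (hfr : ∀ c, IsFr (mch s c)) :
    ∃ B : PModel ℂ F, (∀ j, Gn B (s j)) ∧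
      ∀ (L : LP F) (c : ∀ j, io j), L.Of (mch s c) → Reg L → ∃ w : Pts B, lp w = L := by
  let w : (∀ j, io j) → F := fun c => ∏ j, s j (c j)
  have hch : ∀ i, chart ℂ (w ∘ eI _) i = mch s (eI _ i) := fun i =>
    (chart_comp w (eI _).surjective i).trans (chI_prod hs _)
  obtain ⟨B, n, -, hB⟩ := hP F _ (w ∘ eI _) ∅ 1
    (fun i => Finset.prod_ne_zero_iff.2 fun j _ => hs _ _) (hch 0 ▸ hfr _)
    fun j => ⟨0, fun a => by simp⟩
  have key : ∀ x : Pts B, ∃ (t : Fin n → F) (i₀ : _),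
      Res.PlusAt (w ∘ eI _) ∅ (lp x).O t i₀ ∧ mch s (eI _ i₀) ≤ (lp x).O := fun x => by
    obtain ⟨i, hi⟩ := exists_pat x
    obtain ⟨t, i₀, h⟩ := hB i (chr i x hi)
    rw [← lp_O hi] at h
    exact ⟨t, i₀, h, hch i₀ ▸ Algebra.adjoin_le (Set.range_subset_iff.2 h.dom)⟩
  refine ⟨B, fun j x => ?_, fun L c hL hR => ?_⟩
  · obtain ⟨t, i₀, -, h⟩ := key x
    exact ⟨eI _ i₀ j, hs _ _, fun i => h (div_mem_mch _ j i)⟩
  · obtain ⟨V, h1, h2⟩ := exists_val_dom L
    obtain ⟨x, hx⟩ := exists_ov B (KV.of_le h1)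
    obtain ⟨t, i₀, h3, h4⟩ := key x
    have h5 := mch_le_of_val hL.le (fun _ => hs _ _) (fun _ => hs _ _) h1
      (fun f hf => (h2 f hf).1) fun j i => hx _ (h4 (div_mem_mch (eI _ i₀) j i))
    have h6 := of_mch hL (fun _ => hs _ _) (fun _ => hs _ _) h5
    rw [← hch] at h4 h6
    have h7 : lo _ (L.hom.comp (Subalgebra.inclusion h6.le)) = L.O :=
      (lo_eq _).trans (congrArg LP.O (fr_eq h6))
    refine ⟨x, Res.Log.lp_ext ((h3.iso i₀ _ ?_ fun a => ⟨h4 a.2, fun h0 hu => ?_⟩).trans h7)⟩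
    · obtain ⟨m, z, hz⟩ := hR
      rw [h7]
      exact ⟨m, z, fun _ => none, hz, fun _ h => h.elim, fun _ h => h.elim⟩
    · exact (h2 a (h6.le a.2)).1 (hx.un (un_iff_v.1 hu)) h0

end Fam

theorem eq_of_le {P : PModel ℂ F} {x x' : Pts P} (h : (lp x).O ≤ (lp x').O) : x = x' :=
  eq_of_dom (dom_le h) (dom_refl _)

end Crest.Agent.X262.Ms2
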