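import Crest.Agent.X262.Ms2.Ctx
import Crest.Agent.X262.End79.Two

/-!
# Row 262, road B (helper2), part 6: the space and its two ends

* `PureStmt` : the two-step model;  `Spc h` : the space;  `exists_spc`;
* `Spc.ep`, `Spc.em` : the ends;  `dvp`, `dvm` : they are divisors;  `fib` : good fibres.
-/

set_option autoImplicit false

noncomputable section

namespace Crest.Agent.X262.Ms2

open Crest.Agent.X277 Crest.Agent.X277.Lef Crest.Agent.X277.AN.G1 Crest.Agent.X277.BD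
  Crest.Agent.X277.BD.Br
open Crest.Agent.X277.Cns (IsRF lpR Gn ra)
open Crest.Agent.X277.Res.Out (IsFr)
open Crest.Agent.R274.Prod1_134 (IsPF)
open Crest.Agent.X262.Coh Crest.Agent.X262.End79

/-- the two-step model -/
def PureStmt : Prop :=
  ∀ {K F M E : Type} [Field K] [Algebra ℂ K] [Field F] [Algebra ℂ F] [Field M] [Algebra ℂ M]
    [Field E] [Algebra ℂ E] {α : K →ₐ[ℂ] M} {β : F →ₐ[ℂ] M} (pf : IsPF α β) (ρ : M →ₐ[ℂ] E)
    (X : PModel ℂ K) (S : PModel ℂ F) {J : Type} [Fintype J] {io : J → Type} [∀ j, Finite (io j)]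
    [∀ j, Nonempty (io j)] (s : ∀ j, io j → E), (∀ j i, s j i ≠ 0) → (∀ c, IsFr (mch s c)) →
    ∀ (vx : Pts X → LP E) (u : Pts X → Fin (S.N + 1) → E) (rf : ∀ x k, IsRF ρ (u x k)),
    (∀ x k l, u x l = u x k * ρ (β (S.y l / S.y k))) →
    (∀ x, Reg (vx x) ∧ ∃ c, (vx x).Of (mch s c)) →
    (∀ x, (vx x).Of (Algebra.adjoin ℂ ((fun f => ρ (α f)) '' (lp x).O ∪ Set.range (u x)))) →
    (∀ x k, (vx x).v (u x k) = 0) →
    (∀ (N : LP E) c, mch s c ≤ N.O →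
      (∃ x, (vx x).O ≤ N.O) ∨ ∃ k, ∀ l, ρ (β (S.y l / S.y k)) ∈ N.O) →
    ∃ (B : PModel ℂ E) (N : ℕ) (R : Fin (N + 1) → E), 0 < N ∧ (∀ i, R i ≠ 0) ∧
      (∀ j, Gn B (s j)) ∧
      (∀ w : Pts B, ∃ i k, (lp w).Of (Algebra.adjoin ℂ (Set.range (fun l => R l / R i) ∪
        Set.range fun l => ρ (β (S.y l / S.y k))))) ∧
      (∀ (L : LP E) c k, L.Of (mch s c) → Reg L → (∀ l, ρ (β (S.y l / S.y k)) ∈ L.O) →
        ∃ w : Pts B, lp w = L) ∧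
      (∀ (z : Pts (Cns.prod X S pf)) k, (Cns.snd X S pf).map z ∈ pat S k →
        ∃ w : Pts B, lp w = lpR (rf ((Cns.fst X S pf).map z) k) (lp z) 0) ∧
      ∃ x i, ∀ l, R l / R i ∈ (vx x).O

variable {K F M E F' : Type} [Field K] [Algebra ℂ K] [Field F] [Algebra ℂ F] [Field M]
  [Algebra ℂ M] [Field E] [Algebra ℂ E] [Field F'] [Algebra ℂ F']
  {D : Dat K F E} {α : K →ₐ[ℂ] M} {β : F →ₐ[ℂ] M} {ρ : M →ₐ[ℂ] E}

/-- the space -/
structure Spc (h : D.Ok α β ρ) where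
  /-- the model -/
  B : PModel ℂ E
  /-- the length of `R` -/
  N : ℕ
  /-- the coordinates of the contraction -/
  R : Fin (N + 1) → E
  N_pos : 0 < N
  R_ne : ∀ i, R i ≠ 0
  gn : ∀ j, Gn B (D.y j)
  emb : ∀ w : Pts B, ∃ i k, (lp w).Of (Algebra.adjoin ℂ (Set.range (fun l => R l / R i) ∪
    Set.range fun l => ρ (β (D.S.y l / D.S.y k))))
  exp : ∀ (z : Pts (Cns.prod D.Yp D.S h.pf)) k, (Cns.snd _ _ h.pf).map z ∈ pat D.S k →
    ∀ c, ∃ w : Pts B, lp w = lpR (h.rfp k) (lp z) c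
  /-- a chart of `a` -/
  jx : Pts D.Ym → Fin (D.n + 1)
  /-- a chart of `Ym` -/
  lx : Pts D.Ym → Fin (D.Ym.N + 1)
  hl : ∀ x, x ∈ pat D.Ym (lx x)
  hj : ∀ x, At (mxf ℂ D.a) x (D.a (jx x))
  exm : ∀ (z : Pts (Cns.prod D.Ym D.S h.pf)) k, (Cns.snd _ _ h.pf).map z ∈ pat D.S k →
    ∃ w : Pts B, lp w = lpR (h.rfm (jx ((Cns.fst _ _ h.pf).map z), k)
      (lx ((Cns.fst _ _ h.pf).map z))) (lp z) 0
  pur : ∃ (x : Pts D.Ym) (i : Fin (N + 1)) (L : LP E), (∀ l, R l / R i ∈ L.O) ∧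
    L.Of (Algebra.adjoin ℂ ((fun f => ρ (α f)) '' (lp x).O ∪
      Set.range fun k => D.um (jx x, k) (lx x))) ∧ ∀ k, L.v (D.um (jx x, k) (lx x)) = 0

theorem vx_le (h : D.Ok α β ρ) {x : Pts D.Ym} {L N : LP E} {u : Fin (D.S.N + 1) → E}
    (h1 : L.Of (Algebra.adjoin ℂ ((fun f => ρ (α f)) '' (lp x).O ∪ Set.range u)))
    (h2 : ∀ k, L.v (u k) = 0) (h3 : ∀ f ∈ (lp x).O, D.κ f ∈ N.O)
    (h4 : ∀ k, u k ∈ N.O ∧ N.v (u k) = 0) : L.O ≤ N.O := by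
  have h5 : ∀ f ∈ (lp x).O, D.κ f ∈ L.O := fun f hf =>
    h.κ f ▸ h1.le (Algebra.subset_adjoin (Or.inl ⟨f, hf, rfl⟩))
  refine le_of_gen h1 ?_ ?_ <;> rintro _ (⟨f, hf, rfl⟩ | ⟨k, rfl⟩)
  · exact (h.κ f ▸ h3 f hf : ρ (α f) ∈ _)
  · exact (h4 k).1
  · beta_reduce
    rw [← h.κ, v_hom h3 hf, v_hom h5 hf]
  · rw [(h4 k).2, h2]

theorem exists_spc (hP : PureStmt) (h : D.Ok α β ρ) (c : Cone F' D.S) : Nonempty (Spc h) := by
  choose vx jx lx hl hj v1 v2 v3 using h.exists_vx c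
  obtain ⟨B, N, R, h1, h2, h3, h4, h5, h6, x, i, h7⟩ := hP h.pf ρ D.Ym D.S D.y h.ne.y h.isFr vx
    (fun x k => D.um (jx x, k) (lx x)) (fun x k => h.rfm _ _) (fun x k l => h.um_mul _ _ k l)
    v1 v2 v3 fun N c' hc => by
      rcases h.dich (N := N) (o := c' .C) fun o => hc (div_mem_mch c' .C o) with h1 | ⟨q, k, h1⟩
      · obtain ⟨x, hx⟩ := h.vert (N := N) (q := c' .U) (fun q => hc (div_mem_mch c' .U q)) (h1 _)
        exact Or.inl ⟨x, vx_le h (v2 x) (v3 x) hx fun k => h1 (jx x, .inr (lx x)) k⟩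
      · refine Or.inr ⟨k, fun l => ?_⟩
        have h2 := h1 (some (q, l))
        simp only [Dat.yC, Option.elim] at h2
        rwa [mul_div_mul_left _ _ (h.ne.yU q), h.μ_div] at h2
  refine ⟨⟨B, N, R, h1, h2, h3, h4, fun z k hk c => ?_, jx, lx, hl, hj, h6, x, i, vx x, h7, v2 x,
    v3 x⟩⟩
  obtain ⟨⟨c', h8⟩, h9⟩ := h.of_plus z hk c
  exact h5 _ c' k h8 ((reg_lp z).lpR _ c) fun l => h.μ_div k l ▸ h9 l

namespace Spc

variable {h : D.Ok α β ρ} (W : Spc h)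

theorem gnS : Gn W.B D.μ := fun w => by
  obtain ⟨i, k, hw⟩ := W.emb w
  exact ⟨k, Dat.μ_ne k, fun l => h.μ_div k l ▸ hw.le (Algebra.subset_adjoin (Or.inr ⟨l, rfl⟩))⟩

theorem gnR : Gn W.B W.R := fun w => by
  obtain ⟨i, k, hw⟩ := W.emb w
  exact ⟨i, W.R_ne i, fun l => hw.le (Algebra.subset_adjoin (Or.inl ⟨l, rfl⟩))⟩

/-- the trivial end -/
def ep : End (sv (Cns.prod D.Yp D.S h.pf)) (sv W.B) := mkEnd h.rf fun z => by
  obtain ⟨k, hk⟩ := exists_pat ((Cns.snd _ _ h.pf).map z)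
  exact ⟨_, h.rfp k, _, h.cp_ne k, h.up_eq k, W.exp z k hk 0⟩

/-- the concave end -/
def em : End (sv (Cns.prod D.Ym D.S h.pf)) (sv W.B) := mkEnd h.rf.inv fun z => by
  obtain ⟨k, hk⟩ := exists_pat ((Cns.snd _ _ h.pf).map z)
  exact ⟨_, h.rfm _ _, _, h.cm_ne _ _, h.um_eq' _ _, W.exm z k hk⟩

theorem witp (z : Pts (Cns.prod D.Yp D.S h.pf)) {k : Fin (D.S.N + 1)}
    (hk : (Cns.snd _ _ h.pf).map z ∈ pat D.S k) : W.ep.Wit z (D.up k) (W.ep.i.map z) := by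
  obtain ⟨w, hw⟩ := W.exp z k hk 0
  have h1 : W.ep.Wit z (D.up k) w := ⟨h.rfp k, _, h.cp_ne k, h.up_eq k, hw⟩
  exact h1.map ▸ h1

theorem witm (z : Pts (Cns.prod D.Ym D.S h.pf)) {k : Fin (D.S.N + 1)}
    (hk : (Cns.snd _ _ h.pf).map z ∈ pat D.S k) :
    W.em.Wit z (D.um (W.jx ((Cns.fst _ _ h.pf).map z), k) (W.lx ((Cns.fst _ _ h.pf).map z)))
      (W.em.i.map z) := by
  obtain ⟨w, hw⟩ := W.exm z k hk
  have h1 : W.em.Wit z _ w := ⟨h.rfm _ _, _, h.cm_ne _ _, h.um_eq' _ _, hw⟩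
  exact h1.map ▸ h1

variable {W} {w : Pts W.B}

/-- the point of a product under a point of the space -/
theorem exists_z {Q : PModel ℂ K} (x : Pts Q) (hx : ∀ f ∈ (lp x).O, D.κ f ∈ (lp w).O)
    {k : Fin (D.S.N + 1)} (hk : ∀ l, D.μ l / D.μ k ∈ (lp w).O) :
    ∃ z : Pts (Cns.prod Q D.S h.pf), (Cns.fst _ _ h.pf).map z = x ∧
      (Cns.snd _ _ h.pf).map z ∈ pat D.S k ∧ ∀ f ∈ (lp z).O, ρ f ∈ (lp w).O := by
  obtain ⟨s, hs, h1⟩ := exists_pt (N := lp w) (i := k) D.σ fun l => by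
    rw [map_div₀]
    exact hk l
  exact ⟨Cns.mk h.pf x s, Cns.fst_mk _ _ _, by rwa [Cns.snd_mk],
    mk_le h.pf ρ (fun f hf => h.κ f ▸ hx f hf) fun f hf => h.σ f ▸ h1 f hf⟩

theorem mem_ep {k : Fin (D.S.N + 1)} (hk : ∀ l, D.μ l / D.μ k ∈ (lp w).O)
    (h1 : D.up k ∈ (lp w).O) (h2 : ev (D.up k) w = 0) : w ∈ Set.range W.ep.i.map := by
  obtain ⟨o, -, ho⟩ := W.gn .P w
  obtain ⟨x, hx⟩ := h.plus ho h1 h2
  obtain ⟨z, -, h3, h4⟩ := exists_z x hx hk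
  exact ⟨z, (W.witp z h3).eq h4 h1 h2⟩

theorem mem_em (h1 : ∀ q k, D.yC (some (q, k)) / D.yC none ∈ (lp w).O ∧
    (lp w).v (D.yC (some (q, k)) / D.yC none) = 0) : w ∈ Set.range W.em.i.map := by
  obtain ⟨q, -, hq⟩ := W.gn .U w
  obtain ⟨x, hx⟩ := h.vert hq (h1 q)
  obtain ⟨k, -, hk⟩ := W.gnS w
  obtain ⟨z, -, h3, h4⟩ := exists_z x hx hk
  exact ⟨z, (W.witm z h3).eq h4 (h1 _ _).1 (h1 _ _).2⟩

theorem yG_div (k l : Fin (D.S.N + 1)) (h : D.Ok α β ρ) :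
    D.yG (some l) / D.yG (some k) = D.μ l / D.μ k := mul_div_mul_left _ _ (Dat.κ_ne h.gp.1)

theorem at_G {k : Fin (D.S.N + 1)} (hk : ∀ l, D.μ l / D.μ k ∈ (lp w).O)
    (h1 : D.up k ∈ (lp w).O) : At (mxf ℂ D.yG) w (D.yG (some k)) := by
  refine at_mxf (h.ne.yG _) ?_
  rintro (_ | l)
  · exact h1
  · exact yG_div k l h ▸ hk l

theorem μ_mem {Q : PModel ℂ K} (e : End (sv (Cns.prod Q D.S h.pf)) (sv W.B)) (he : e.ρ = ρ)
    {z : Pts (Cns.prod Q D.S h.pf)} {k : Fin (D.S.N + 1)}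
    (hk : (Cns.snd _ _ h.pf).map z ∈ pat D.S k) (l : Fin (D.S.N + 1)) :
    D.μ l / D.μ k ∈ (lp (e.i.map z)).O := by
  rw [h.μ_div, ← DFunLike.congr_fun he]
  exact e.ρ_mem ((mem_prod h.pf z).2 _ (y_mem hk l))

theorem κ_mem {Q : PModel ℂ K} (e : End (sv (Cns.prod Q D.S h.pf)) (sv W.B)) (he : e.ρ = ρ)
    (z : Pts (Cns.prod Q D.S h.pf)) :
    ∀ f ∈ (lp ((Cns.fst _ _ h.pf).map z)).O, D.κ f ∈ (lp (e.i.map z)).O := fun f hf => by
  rw [h.κ, ← DFunLike.congr_fun he]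
  exact e.ρ_mem ((mem_prod h.pf z).1 _ hf)

variable (W) in
/-- the trivial end is the divisor of `t` -/
theorem dvp : IsDv W.ep.i (mxf ℂ D.yG - pr ℂ D.t) := by
  refine End.isDv_sec' h.ne.t (fun z => ?_) fun w hw => ?_
  · obtain ⟨k, hk⟩ := exists_pat ((Cns.snd _ _ h.pf).map z)
    refine ⟨_, _, W.witp z hk, ?_⟩
    rw [Dat.up, div_div_cancel₀ h.ne.t]
    exact at_G (μ_mem W.ep rfl hk) (W.witp z hk).mem
  · obtain ⟨_ | k, h1, h2⟩ := W.gn .G w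
    · exact absurd (at_mxf h1 h2) hw
    · refine mem_ep (k := k) (fun l => yG_div k l h ▸ h2 (some l)) (h2 none) ?_
      by_contra h3
      exact hw ((at_mxf h1 h2).of_ev' h3)

theorem _root_.Crest.Agent.X262.Ms2.Dat.Ok.bas (h : D.Ok α β ρ) {Q : PModel ℂ K}
    (hQ : oP D.Y ∈ On Q) (x : Pts Q) {j : Fin (D.n + 1)} (hj : At (mxf ℂ D.a) x (D.a j))
    {O : Subalgebra ℂ E} (hO : ∀ f ∈ (lp x).O, D.κ f ∈ O) : ∃ i, D.Bas O i j := by
  obtain ⟨y, hy⟩ := exists_under hQ x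
  obtain ⟨i, hi⟩ := exists_pat y
  have h4 : ∀ {f g : K}, f ∈ (oP D.Yp).Sec → g ∈ (oP D.Ym).Sec → f * g / D.a j ∈ (lp x).O :=
    fun hf hg => hj.div_mem (Sec_mono h.le (mul_mem_Sec hf hg))
  exact ⟨i, fun l => hO _ (hy (y_mem hi l)), fun l => hO _ (hj.div_mem (mem_Sec_mxf _ l)),
    fun l => hO _ (h4 h.gp.2 (y_mem_Sec l)), fun l => hO _ (h4 (y_mem_Sec l) h.gm.2),
    hO _ (h4 h.gp.2 h.gm.2)⟩

variable (W) in
theorem mch_em (z : Pts (Cns.prod D.Ym D.S h.pf)) : ∃ i, mch D.y (D.cm i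
    (W.jx ((Cns.fst _ _ h.pf).map z)) (W.lx ((Cns.fst _ _ h.pf).map z))) ≤
      (lp (W.em.i.map z)).O := by
  obtain ⟨k, hk⟩ := exists_pat ((Cns.snd _ _ h.pf).map z)
  have h1 := κ_mem W.em rfl z
  obtain ⟨i, hi⟩ := h.bas h.hm _ (W.hj _) h1
  refine ⟨i, Dat.mch_cm hi h.ne (fun l => h1 _ (y_mem (W.hl _) l))
    (h1 _ ((at_y (W.hl _)).div_mem h.gm.2)) fun k' => ?_⟩
  rw [h.um_mul _ _ k, ← h.μ_div]
  exact mul_mem (W.witm z hk).mem (μ_mem W.em rfl hk k')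

variable (W) in
/-- the concave end is the fibre of `C` over the coordinate point -/
theorem dvm : IsDv W.em.i (mxf ℂ D.yC - (mxf ℂ D.yU + mxf ℂ D.μ)) := by
  refine End.isDv_sub' (fun z => ?_) fun w hw => ?_
  · obtain ⟨k, hk⟩ := exists_pat ((Cns.snd _ _ h.pf).map z)
    obtain ⟨i, hi⟩ := W.mch_em z
    refine ⟨_, _, D.yC none, W.witm z hk,
      at_mxf (h.ne.yC _) fun o => hi (div_mem_mch (s := D.y) _ .C o), ?_⟩
    rw [Dat.um, show D.yC none = (D.t * D.κ D.gm) ^ 2 from rfl,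
      div_mul_cancel₀ _ (pow_ne_zero 2 h.ne.tg)]
    exact (at_mxf (h.ne.yU _) fun q => hi (div_mem_mch (s := D.y) _ .U q)).add
      (at_mxf (Dat.μ_ne k) (μ_mem W.em rfl hk))
  · obtain ⟨o, -, ho⟩ := W.gn .C w
    obtain h1 | ⟨q, k, h1⟩ := h.dich ho
    · exact absurd (mem_em h1) hw
    · refine ⟨_, at_mxf (h.ne.yC _) h1, (at_mxf (h.ne.yU q) fun q' => ?_).add
        (at_mxf (Dat.μ_ne k) fun l => ?_)⟩
      · exact mul_div_mul_right (D.yU q') (D.yU q) (Dat.μ_ne k) ▸ h1 (some (q', k))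
      · exact mul_div_mul_left (D.μ l) (D.μ k) (h.ne.yU q) ▸ h1 (some (q, l))

/-- the points over a good point -/
theorem fib {y : Pts D.Y} (hy : ∀ f ∈ (lp y).O, D.κ f ∈ (lp w).O)
    (h1 : At (mxf ℂ D.a) y (D.gp * D.gm)) {xp : Pts D.Yp} (h2 : (lp xp).O = (lp y).O)
    {xm : Pts D.Ym} (h3 : (lp xm).O = (lp y).O) (h4 : At (oP D.Ym) xm D.gm)
    (hw : w ∉ Set.range W.em.i.map) : ∃ k, (∀ o, D.yG o / D.yG (some k) ∈ (lp w).O) ∧
      (lp w).Of (Algebra.adjoin ℂ (D.κ '' (lp y).O ∪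
        Set.range fun o => D.yG o / D.yG (some k))) := by
  obtain ⟨k, -, hk⟩ := W.gnS w
  have hu : D.up k ∈ (lp w).O := by
    by_contra hu
    obtain ⟨_ | k', -, h5⟩ := W.gn .G w
    · have h6 : (D.up k)⁻¹ ∈ (lp w).O := by
        rw [Dat.up, inv_div]
        exact h5 (some k)
      have h7 : (lp w).v (D.up k)⁻¹ = 0 := by
        by_contra h7
        exact hu (inv_inv (D.up k) ▸ (lp w).inv_mem h7)
      obtain ⟨z, rfl, h8, h9⟩ := exists_z xm (fun f hf => hy f (h3 ▸ hf)) hk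
      have e : ∀ j l, D.um (j, k) l =
          (D.up k)⁻¹ * D.κ (D.a j / (D.gp * D.gm) * (D.Ym.y l / D.gm)) := fun j l => by
        have e1 := h.ne.t
        have e2 := Dat.κ_ne (D := D) h.gm.1
        have e3 := Dat.κ_ne (D := D) h.gp.1
        simp only [Dat.um, Dat.up, Dat.yU, Sum.elim_inr, map_div₀, map_mul, inv_div]
        field_simp
      have e' : ∀ j l, D.κ (D.a j / (D.gp * D.gm) * (D.Ym.y l / D.gm)) ∈ (lp w).O := fun j l =>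
        hy _ (mul_mem (h1.div_mem (mem_Sec_mxf _ j)) (h3 ▸ h4.div_mem (y_mem_Sec l)))
      refine hw ⟨z, (W.witm z h8).eq h9 (e _ _ ▸ mul_mem h6 (e' _ _)) ?_⟩
      unfold ev
      rw [e, LP.v_mul _ h6 (e' _ _), h7, zero_mul]
    · refine hu ?_
      have h6 : D.yG none / D.yG (some k') * _ ∈ _ := mul_mem (h5 none) (hk k')
      rwa [← yG_div k k' h, div_mul_div_cancel₀ (h.ne.yG _)] at h6
  have h5 : ∀ o, D.yG o / D.yG (some k) ∈ (lp w).O := fun o =>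
    (at_G hk hu).div_mem (mem_Sec_mxf _ o)
  refine ⟨k, h5, ?_⟩
  obtain ⟨z, rfl, h8, h9⟩ := exists_z xp (fun f hf => hy f (h2 ▸ hf)) hk
  obtain ⟨w', hw'⟩ := W.exp z k h8 ((lp w).v (D.up k))
  obtain rfl : w' = w := eq_of_le (hw' ▸ lpR_le _ h9 hu)
  have h6 := Cns.lpP_of' h.pf (of_self (lp ((Cns.fst _ _ h.pf).map z))) (lp_of h8)
  rw [← Cns.lp_prod] at h6
  have h7 := lpR_of' (h.rfp k) h6 ((lp w').v (D.up k))
  rw [← hw'] at h7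
  refine Cns.of_mono h7 (Cns.ra_le (fun f hf => ?_)
    (Algebra.subset_adjoin (Or.inr ⟨none, rfl⟩))) (Algebra.adjoin_le ?_)
  · have h10 : R274.Prod4_134.pr α β (lp ((Cns.fst _ _ h.pf).map z)).O (D.S.A k) ≤
        (Algebra.adjoin ℂ (D.κ '' (lp y).O ∪
          Set.range fun o => D.yG o / D.yG (some k))).comap ρ := by
      refine R274.Prod4_134.pr_le (fun a ha => Algebra.subset_adjoin
        (Or.inl ⟨a, h2 ▸ ha, h.κ a⟩)) fun a ha => ?_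
      refine Algebra.adjoin_le (S := ((Algebra.adjoin ℂ (D.κ '' (lp y).O ∪
          Set.range fun o => D.yG o / D.yG (some k))).comap ρ).comap β) ?_ ha
      rintro _ ⟨l, rfl⟩
      exact Algebra.subset_adjoin (Or.inr ⟨some l, (yG_div k l h).trans (h.μ_div k l)⟩)
    exact h10 hf
  · rintro _ (⟨f, hf, rfl⟩ | ⟨o, rfl⟩)
    exacts [hy f hf, h5 o]

end Spc

end Crest.Agent.X262.Ms2
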