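import Crest.Agent.X262.Ms2.Keep
import Crest.Agent.X262.Gwb.Defs

/-!
# Row 262, road B (helper2), part 3: the explicit tuples of the master space

* `Dat K F E` : the data; `D.y j` (`j : Ix`) the tuples `A, P, G, U, C`; `tm1` : the tuple of the
  concave end;
* `D.up k`, `D.um p l` : the normal coordinates along the two ends; `D.cp`, `D.cm` : the charts;
* `D.Bas O i j` : the ratios which are regular everywhere; `mch_cp`, `mch_cm`.
-/

set_option autoImplicit false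

noncomputable section

namespace Crest.Agent.X262.Ms2

open Crest.Agent.X277 Crest.Agent.X277.Lef Crest.Agent.X277.AN.G1
open Crest.Agent.X262.Gwb (Tup)

/-- the explicit factors -/
inductive Ix : Type
  | A | P | G | U | C

instance : DecidableEq Ix := Classical.decEq _

instance : Fintype Ix := ⟨{.A, .P, .G, .U, .C}, fun j => by cases j <;> simp⟩

variable (K F E : Type) [Field K] [Algebra ℂ K] [Field F] [Algebra ℂ F] [Field E] [Algebra ℂ E]

/-- the data of the master space -/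
structure Dat where
  /-- the base -/
  Y : PModel ℂ K
  /-- the trivial end -/
  Yp : PModel ℂ K
  /-- the concave end -/
  Ym : PModel ℂ K
  /-- the projective space -/
  S : PModel ℂ F
  /-- the length of `a` -/
  n : ℕ
  /-- a tuple which is regular on `Y` -/
  a : Fin (n + 1) → K
  /-- a hyperplane section of `Yp` -/
  gp : K
  /-- a hyperplane section of `Ym` -/
  gm : K
  /-- the functions on `Y` -/
  κ : K →ₐ[ℂ] E
  /-- the functions on `S` -/
  σ : F →ₐ[ℂ] E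
  /-- the fibre coordinate -/
  t : E

variable {K F E}

/-- the tuple `(0, a · y)` -/
def tm1 {n : ℕ} (a : Fin (n + 1) → K) (P : PModel ℂ K) : Tup K :=
  ⟨Option (Fin (n + 1) × Fin (P.N + 1)), fun o => o.elim 0 fun p => a p.1 * P.y p.2⟩

namespace Dat

variable (D : Dat K F E)

/-- the coordinates of `S` -/
abbrev μ (k : Fin (D.S.N + 1)) : E := D.σ (D.S.y k)

/-- the index set of `a μ` -/
abbrev ι : Type := Fin (D.n + 1) × Fin (D.S.N + 1)

/-- the index set of `U` -/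
abbrev ιU : Type := Fin (D.n + 1) × (D.ι ⊕ Fin (D.Ym.N + 1))

/-- the tuple `U = a · (a μ, t ym)` -/
def yU (q : D.ιU) : E :=
  D.κ (D.a q.1) * q.2.elim (fun p => D.κ (D.a p.1) * D.μ p.2) fun i => D.t * D.κ (D.Ym.y i)

/-- the tuple `G = (t, gp μ)` -/
def yG (o : Option (Fin (D.S.N + 1))) : E := o.elim D.t fun k => D.κ D.gp * D.μ k

/-- the tuple `C = ((t gm) ^ 2, U ⊗ μ)` -/
def yC (o : Option (D.ιU × Fin (D.S.N + 1))) : E :=
  o.elim ((D.t * D.κ D.gm) ^ 2) fun q => D.yU q.1 * D.μ q.2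

/-- the index sets -/
abbrev io : Ix → Type
  | .A => Fin (D.Y.N + 1)
  | .P => Option (Fin (D.Yp.N + 1) × Fin (D.S.N + 1))
  | .G => Option (Fin (D.S.N + 1))
  | .U => D.ιU
  | .C => Option (D.ιU × Fin (D.S.N + 1))

instance (j : Ix) : Finite (D.io j) := by cases j <;> infer_instance

instance (j : Ix) : Nonempty (D.io j) := by cases j <;> infer_instance

/-- the coordinates -/
def y : ∀ j, D.io j → E
  | .A => fun i => D.κ (D.Y.y i)
  | .P => fun o => o.elim D.t fun p => D.κ (D.Yp.y p.1) * D.μ p.2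
  | .G => D.yG
  | .U => D.yU
  | .C => D.yC

/-- the normal coordinate along the trivial end -/
def up (k : Fin (D.S.N + 1)) : E := D.t / (D.κ D.gp * D.μ k)

/-- the normal coordinate along the concave end -/
def um (p : D.ι) (l : Fin (D.Ym.N + 1)) : E :=
  D.yU (p.1, .inr l) * D.μ p.2 / (D.t * D.κ D.gm) ^ 2

/-- the chart along the trivial end -/
def cp (i : Fin (D.Y.N + 1)) (p : D.ι) (l : Fin (D.Yp.N + 1)) : ∀ j, D.io j
  | .A => i
  | .P => some (l, p.2)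
  | .G => some p.2
  | .U => (p.1, .inl p)
  | .C => some ((p.1, .inl p), p.2)

/-- the chart along the contracted concave end -/
def cm (i : Fin (D.Y.N + 1)) (j : Fin (D.n + 1)) (l : Fin (D.Ym.N + 1)) : ∀ j, D.io j
  | .A => i
  | .P => none
  | .G => none
  | .U => (j, .inr l)
  | .C => none

/-- nothing vanishes -/
structure Ne : Prop where
  a : ∀ j, D.a j ≠ 0
  gp : D.gp ≠ 0
  gm : D.gm ≠ 0
  t : D.t ≠ 0

/-- the ratios which are regular at every point -/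
structure Bas (O : Subalgebra ℂ E) (i : Fin (D.Y.N + 1)) (j : Fin (D.n + 1)) : Prop where
  A : ∀ l, D.κ (D.Y.y l / D.Y.y i) ∈ O
  a : ∀ l, D.κ (D.a l / D.a j) ∈ O
  gpm : ∀ l, D.κ (D.gp * D.Ym.y l / D.a j) ∈ O
  pgm : ∀ l, D.κ (D.Yp.y l * D.gm / D.a j) ∈ O
  gg : D.κ (D.gp * D.gm / D.a j) ∈ O

variable {D} {O : Subalgebra ℂ E} {i : Fin (D.Y.N + 1)} {p : D.ι} {j : Fin (D.n + 1)}

theorem μ_ne (k : Fin (D.S.N + 1)) : D.μ k ≠ 0 := (map_ne_zero _).2 (D.S.y_ne k)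

theorem κ_ne {f : K} (hf : f ≠ 0) : D.κ f ≠ 0 := (map_ne_zero _).2 hf

theorem Ne.yU (h : D.Ne) (q : D.ιU) : D.yU q ≠ 0 := by
  obtain ⟨p, q | q⟩ := q
  exacts [mul_ne_zero (κ_ne (h.a p)) (mul_ne_zero (κ_ne (h.a _)) (μ_ne _)),
    mul_ne_zero (κ_ne (h.a p)) (mul_ne_zero h.t (κ_ne (D.Ym.y_ne q)))]

theorem Ne.tg (h : D.Ne) : D.t * D.κ D.gm ≠ 0 := mul_ne_zero h.t (κ_ne h.gm)

theorem Ne.yG (h : D.Ne) (o : Option (Fin (D.S.N + 1))) : D.yG o ≠ 0 := by
  cases o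
  exacts [h.t, mul_ne_zero (κ_ne h.gp) (μ_ne _)]

theorem Ne.yC (h : D.Ne) (o : Option (D.ιU × Fin (D.S.N + 1))) : D.yC o ≠ 0 := by
  cases o
  exacts [pow_ne_zero _ h.tg, mul_ne_zero (h.yU _) (μ_ne _)]

theorem Ne.y (h : D.Ne) (j : Ix) (l : D.io j) : D.y j l ≠ 0 := by
  cases j
  · exact κ_ne (D.Y.y_ne l)
  · cases l
    exacts [h.t, mul_ne_zero (κ_ne (D.Yp.y_ne _)) (μ_ne _)]
  · exact h.yG l
  · exact h.yU l
  · exact h.yC l

theorem Bas.cp_U (h : D.Bas O i p.1) (hn : D.Ne) (hS : ∀ k, D.μ k / D.μ p.2 ∈ O)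
    (hu : D.up p.2 ∈ O) (q : D.ιU) : D.yU q / D.yU (p.1, .inl p) ∈ O := by
  have e2 := κ_ne (D := D) hn.gp
  have e3 := κ_ne (D := D) (hn.a p.1)
  have e4 := μ_ne (D := D) p.2
  obtain ⟨q, q' | l⟩ := q
  · convert mul_mem (h.a q) (mul_mem (h.a q'.1) (hS q'.2)) using 1
    simp only [yU, Sum.elim_inl, map_div₀]
    field_simp
  · convert mul_mem (h.a q) (mul_mem hu (h.gpm l)) using 1
    simp only [yU, up, Sum.elim_inl, Sum.elim_inr, map_div₀, map_mul]
    field_simp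

/-- the chart ring along the trivial end -/
theorem mch_cp (h : D.Bas O i p.1) (hn : D.Ne) (hS : ∀ k, D.μ k / D.μ p.2 ∈ O)
    {l : Fin (D.Yp.N + 1)} (h1 : ∀ l', D.κ (D.Yp.y l' / D.Yp.y l) ∈ O)
    (h2 : D.κ (D.gp / D.Yp.y l) ∈ O) (hu : D.up p.2 ∈ O) : mch D.y (D.cp i p l) ≤ O := by
  have e2 := κ_ne (D := D) hn.gp
  have e3 := κ_ne (D := D) (hn.a p.1)
  have e4 := μ_ne (D := D) p.2
  have e5 := κ_ne (D := D) (D.Yp.y_ne l)
  refine mch_le fun j q => ?_
  cases j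
  · exact map_div₀ D.κ _ _ ▸ h.A q
  · rcases q with _ | q
    · convert mul_mem hu h2 using 1
      simp only [y, cp, up, Option.elim, map_div₀]
      field_simp
    · convert mul_mem (h1 q.1) (hS q.2) using 1
      simp only [y, cp, Option.elim, map_div₀]
      field_simp
  · rcases q with _ | q
    · exact hu
    · exact (mul_div_mul_left (D.μ q) (D.μ p.2) e2).symm ▸ hS q
  · exact h.cp_U hn hS hu q
  · rcases q with _ | q
    · convert pow_mem (mul_mem hu h.gg) 2 using 1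
      simp only [y, cp, up, yC, yU, Option.elim, Sum.elim_inl, map_div₀, map_mul]
      field_simp
    · have h3 := mul_mem (h.cp_U hn hS hu q.1) (hS q.2)
      rwa [← mul_div_mul_comm] at h3

theorem yU_inl (hn : D.Ne) (j : Fin (D.n + 1)) (l : Fin (D.Ym.N + 1)) (q : Fin (D.n + 1))
    (q' : D.ι) : D.yU (q, .inl q') / D.yU (j, .inr l) = D.um (j, q'.2) l *
      (D.κ (D.a q / D.a j) * D.κ (D.a q'.1 / D.a j) * D.κ (D.gm / D.Ym.y l) ^ 2) := by
  have e1 := hn.t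
  have e2 := κ_ne (D := D) hn.gm
  have e3 := κ_ne (D := D) (hn.a j)
  have e5 := κ_ne (D := D) (D.Ym.y_ne l)
  simp only [yU, um, Sum.elim_inl, Sum.elim_inr, map_div₀]
  field_simp

theorem yU_inr (hn : D.Ne) (j : Fin (D.n + 1)) (l : Fin (D.Ym.N + 1)) (q : Fin (D.n + 1))
    (l' : Fin (D.Ym.N + 1)) : D.yU (q, .inr l') / D.yU (j, .inr l) =
      D.κ (D.a q * D.Ym.y l' / (D.a j * D.Ym.y l)) := by
  have e1 := hn.t
  have e3 := κ_ne (D := D) (hn.a j)
  have e5 := κ_ne (D := D) (D.Ym.y_ne l)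
  simp only [yU, Sum.elim_inr, map_div₀, map_mul]
  field_simp

theorem Bas.cm_U (h : D.Bas O i j) (hn : D.Ne) {l : Fin (D.Ym.N + 1)}
    (h1 : ∀ l', D.κ (D.Ym.y l' / D.Ym.y l) ∈ O) (h2 : D.κ (D.gm / D.Ym.y l) ∈ O)
    (hu : ∀ k, D.um (j, k) l ∈ O) (q : D.ιU) : D.yU q / D.yU (j, .inr l) ∈ O := by
  obtain ⟨q, q' | l'⟩ := q
  · rw [yU_inl hn]
    exact mul_mem (hu _) (mul_mem (mul_mem (h.a q) (h.a q'.1)) (pow_mem h2 2))
  · rw [yU_inr hn, mul_div_mul_comm, map_mul]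
    exact mul_mem (h.a q) (h1 l')

theorem inv_t (hn : D.Ne) (p : D.ι) (l : Fin (D.Ym.N + 1)) (f : K) :
    D.κ f * D.μ p.2 / D.t = D.um p l * (D.κ (f * D.gm / D.a p.1) * D.κ (D.gm / D.Ym.y l)) := by
  have e1 := hn.t
  have e2 := κ_ne (D := D) hn.gm
  have e3 := κ_ne (D := D) (hn.a p.1)
  have e5 := κ_ne (D := D) (D.Ym.y_ne l)
  simp only [yU, um, Sum.elim_inr, map_div₀, map_mul]
  field_simp

theorem um_eq (hn : D.Ne) (p : D.ι) (l : Fin (D.Ym.N + 1)) :
    D.um p l = D.μ p.2 / (D.t / D.κ (D.a p.1 * D.Ym.y l / D.gm ^ 2)) := by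
  have e1 := hn.t
  have e2 := κ_ne (D := D) hn.gm
  have e3 := κ_ne (D := D) (hn.a p.1)
  have e5 := κ_ne (D := D) (D.Ym.y_ne l)
  simp only [yU, um, Sum.elim_inr, map_div₀, map_mul, map_pow]
  field_simp

theorem yC_div (hn : D.Ne) (j : Fin (D.n + 1)) (l : Fin (D.Ym.N + 1)) (q : D.ιU)
    (k : Fin (D.S.N + 1)) :
    D.yC (some (q, k)) / D.yC none = D.um (j, k) l * (D.yU q / D.yU (j, .inr l)) := by
  have e1 := hn.tg
  have e2 := hn.yU (j, .inr l)
  simp only [yC, um, Option.elim]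
  field_simp

/-- the chart ring along the contracted concave end -/
theorem mch_cm (h : D.Bas O i j) (hn : D.Ne) {l : Fin (D.Ym.N + 1)}
    (h1 : ∀ l', D.κ (D.Ym.y l' / D.Ym.y l) ∈ O) (h2 : D.κ (D.gm / D.Ym.y l) ∈ O)
    (hu : ∀ k, D.um (j, k) l ∈ O) : mch D.y (D.cm i j l) ≤ O := by
  have key : ∀ (f : K) (k : Fin (D.S.N + 1)), D.κ (f * D.gm / D.a j) ∈ O →
      D.κ f * D.μ k / D.t ∈ O := fun f k hf =>
    (inv_t hn (j, k) l f).symm ▸ mul_mem (hu k) (mul_mem hf h2)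
  refine mch_le fun j q => ?_
  cases j
  · exact map_div₀ D.κ _ _ ▸ h.A q
  · rcases q with _ | q
    · exact (div_self hn.t).symm ▸ one_mem O
    · exact key _ _ (h.pgm q.1)
  · rcases q with _ | q
    · exact (div_self hn.t).symm ▸ one_mem O
    · exact key _ _ h.gg
  · exact h.cm_U hn h1 h2 hu q
  · rcases q with _ | q
    · exact (div_self (pow_ne_zero 2 hn.tg)).symm ▸ one_mem O
    · exact (yC_div hn j l q.1 q.2).symm ▸ mul_mem (hu _) (h.cm_U hn h1 h2 hu q.1)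

end Dat

end Crest.Agent.X262.Ms2
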